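import Vale.Agent.P150.Weak.Local.LowerTail
import Vale.Agent.P150.Weak.Spec

/-!
Contiguity: an event that ignores gauge transformations and is negligible under the planted
disorder is negligible under the null disorder.
-/

open MeasureTheory ProbabilityTheory Finset Filter
open scoped Topology

namespace Vale.Agent.P150.Weak.Local

open Gap

variable {n : ℕ}

lemma skJ_eq_nullJ {b : ℝ} (hb : 0 ≤ b) (g : Edge n → ℝ) : skJ b g = nullJ (b ^ 2 / n) g := by
  funext i j
  rw [skJ, nullJ, Real.sqrt_div' _ (Nat.cast_nonneg n), Real.sqrt_sq hb]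

/-- The planted couplings at any `τ` depend on the edge variables only. -/
lemma pPr_couplings (b : ℝ) (n : ℕ) (τ : ℝ) {B : Set (Mat n)} (hB : MeasurableSet B) :
    pPr b n n τ (fun J _ => J ∈ B) =
      (gauss (Edge n)).real {g | nullJ (b ^ 2 / n) (fun e => √(b ^ 2 / n) + g e) ∈ B} := by
  have hv : (0:ℝ) ≤ b ^ 2 / n := by positivity
  have hm : MeasurableSet {g : Edge n → ℝ |
      nullJ (b ^ 2 / n) (fun e => √(b ^ 2 / n) + g e) ∈ B} :=
    ((continuous_nullJ _).measurable.comp (by fun_prop)) hB
  rw [pPr, measureReal_def, measureReal_def,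
    ← (gauss_inl (ι := Edge n) (κ := Fin n)).measure_preimage hm.nullMeasurableSet]
  congr 2
  ext g
  simp only [Set.mem_preimage, Set.mem_ofPred_eq, plJ_eq hv]

/-- The size-biased null law is the planted law on gauge invariant events. -/
lemma integral_zbar_indicator (v : ℝ) {B : Set (Mat n)} (hB : MeasurableSet B)
    (hinv : ∀ J ∈ B, ∀ x : Conf n, gmat x J ∈ B) :
    Integrable (fun g => zbar v g * B.indicator (fun _ => (1:ℝ)) (nullJ v g)) (gauss (Edge n)) ∧
    ∫ g, zbar v g * B.indicator (fun _ => (1:ℝ)) (nullJ v g) ∂gauss (Edge n) =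
      (gauss (Edge n)).real {g | nullJ v (fun e => √v + g e) ∈ B} := by
  set φ : Mat n → ℝ := B.indicator fun _ => 1 with hφ
  have hφm : Measurable φ := measurable_const.indicator hB
  have hφinv : ∀ x J, φ (gmat x J) = φ J := by
    intro x J
    by_cases h : J ∈ B
    · rw [hφ, Set.indicator_of_mem h, Set.indicator_of_mem (hinv J h x)]
    · rw [hφ, Set.indicator_of_notMem h, Set.indicator_of_notMem]
      intro h'
      refine h ?_
      have h2 : gmat x (gmat x J) = J := by
        funext i j
        simp only [gmat]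
        linear_combination (spin x j * spin x j * J i j) * Gap.spin_sq x i +
          J i j * Gap.spin_sq x j
      exact h2 ▸ hinv _ h' x
  have hb : ∀ J, |φ J| ≤ 1 := fun J => by
    by_cases h : J ∈ B
    · rw [hφ, Set.indicator_of_mem h, abs_one]
    · rw [hφ, Set.indicator_of_notMem h, abs_zero]
      exact zero_le_one
  have hcm : Measurable fun g : Edge n → ℝ => φ (nullJ v g) :=
    hφm.comp (continuous_nullJ v).measurable
  have hi : ∀ x : Conf n, Integrable (fun g => lik v x g * φ (nullJ v g)) (gauss (Edge n)) :=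
    fun x => (integrable_lik v x).mul_bdd (c := 1) hcm.aestronglyMeasurable
      (ae_of_all _ fun g => by rw [Real.norm_eq_abs]; exact hb _)
  have hx : ∀ x : Conf n, ∫ g, lik v x g * φ (nullJ v g) ∂gauss (Edge n) =
      ∫ g, lik v (fun _ => true) g * φ (nullJ v g) ∂gauss (Edge n) := by
    intro x
    rw [← integral_comp_mp (gauss_gsig x) (hi x).aestronglyMeasurable]
    simp only [lik_gsig, cmul_self, ← gmat_nullJ, hφinv]
  have hfun : (fun g => zbar v g * φ (nullJ v g)) =
      fun g => (∑ x : Conf n, lik v x g * φ (nullJ v g)) / Fintype.card (Conf n) := by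
    funext g
    rw [zbar, ← sum_mul, div_mul_eq_mul_div]
  refine ⟨?_, ?_⟩
  · rw [hfun]
    exact (integrable_finsetSum _ fun x _ => hi x).div_const _
  · rw [hfun, integral_div, integral_finsetSum _ fun x _ => hi x, sum_congr rfl fun x _ => hx x,
      sum_const, card_univ, nsmul_eq_mul, mul_div_cancel_left₀ _ (by exact_mod_cast Fintype.card_pos.ne'),
      ← integral_planted v hφm]
    have hm : MeasurableSet {g : Edge n → ℝ | nullJ v (fun e => √v + g e) ∈ B} :=
      ((continuous_nullJ v).measurable.comp (by fun_prop)) hB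
    exact integral_indicator_one (μ := gauss (Edge n)) hm

/-- Null probability through planted probability. -/
lemma null_le (v : ℝ) {B : Set (Mat n)} (hB : MeasurableSet B)
    (hinv : ∀ J ∈ B, ∀ x : Conf n, gmat x J ∈ B) {θ : ℝ} (hθ : 0 < θ) :
    (gauss (Edge n)).real {g | nullJ v g ∈ B} ≤
      (gauss (Edge n)).real {g | zbar v g < θ} +
        (gauss (Edge n)).real {g | nullJ v (fun e => √v + g e) ∈ B} / θ := by
  obtain ⟨hi, he⟩ := integral_zbar_indicator v hB hinv
  refine (measureReal_mono (s₂ := {g | zbar v g < θ} ∪ {g | nullJ v g ∈ B ∧ θ ≤ zbar v g})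
    fun g hg => ?_).trans ((measureReal_union_le _ _).trans ?_)
  · rcases lt_or_ge (zbar v g) θ with h | h
    · exact Or.inl h
    · exact Or.inr ⟨hg, h⟩
  · refine add_le_add le_rfl ?_
    rw [← he]
    refine markov_real (f := fun g => zbar v g * B.indicator (fun _ => (1:ℝ)) (nullJ v g))
      (fun g => mul_nonneg (zbar_pos v g).le (Set.indicator_nonneg (fun _ _ => zero_le_one) _))
      hi hθ fun g hg => ?_
    rw [Set.indicator_of_mem hg.1, mul_one]
    exact hg.2

/-- **Contiguity** of the null disorder to the planted one for gauge invariant events. -/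
theorem contigSpec (b : ℝ) (hb : 0 < b) (hb1 : b < 1) : ContigSpec b := by
  intro A hA hinv hlim
  have hb2 : b ^ 2 < 1 := by nlinarith
  rw [ENNReal.tendsto_nhds_zero]
  intro ε hε
  rcases eq_or_ne ε ⊤ with rfl | htop
  · exact Filter.Eventually.of_forall fun n => le_top
  have he : 0 < ε.toReal := ENNReal.toReal_pos hε.ne' htop
  obtain ⟨θ, hθ, htail⟩ := zbar_lower_tail hb2 (half_pos he)
  have hev := (tendsto_order.1 hlim).2 (θ * (ε.toReal / 2)) (by positivity)
  filter_upwards [hev, eventually_gt_atTop 0] with n hn hn0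
  rw [← ENNReal.ofReal_toReal htop, disorder_eq, ← ofReal_measureReal]
  refine ENNReal.ofReal_le_ofReal ?_
  simp only [skJ_eq_nullJ hb.le]
  refine (null_le (b ^ 2 / n) (hA n) (fun J hJ x => hinv n J hJ x) hθ).trans ?_
  rw [pPr_couplings b n 0 (hA n)] at hn
  have h2 := htail n hn0
  have h3 : (gauss (Edge n)).real
      {g | nullJ (b ^ 2 / n) (fun e => √(b ^ 2 / n) + g e) ∈ A n} / θ ≤ ε.toReal / 2 := by
    rw [div_le_iff₀ hθ, mul_comm]
    exact hn.le
  linarith

end Vale.Agent.P150.Weak.Local
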