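import Vale.Agent.P150.Weak.Upd
import Vale.Agent.P146.Tilt
import Vale.Agent.P150.Weak.GaussDiv
import Vale.Agent.P150.Gap.Poincare

/-!
Localisation along the Gaussian channel `u = s² x + s z`, `x ∼ μ`, in the form of a differential
inequality: the expected conditional variance of `f` decays at most like `exp (-K s²)`, up to the
expected excess of a covariance bound over `K`.
-/

open MeasureTheory ProbabilityTheory Real Finset
open scoped Topology

namespace Vale.Agent.P150.Weak.Local

open Gap

variable {n : ℕ}

/-- The observed field. -/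
def chan (s : ℝ) (x : Conf n) (z : Fin n → ℝ) (a : Fin n) : ℝ := s ^ 2 * spin x a + s * z a

/-- Averaging over the configuration and the noise of the channel. -/
noncomputable def chanAvg (J : Fin n → Fin n → ℝ) (s : ℝ) (G : (Fin n → ℝ) → ℝ) : ℝ :=
  ∑ x, mu J 0 x * ∫ z, G (chan s x z) ∂gauss (Fin n)

/-- The derivative of `u ↦ E_u g` in the coordinate `a`. -/
noncomputable def covAt (J : Fin n → Fin n → ℝ) (a : Fin n) (g : Conf n → ℝ) (u : Fin n → ℝ) : ℝ :=
  ev J u (fun x => g x * spin x a) - ev J u g * ev J u (fun x => spin x a)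

/-- The derivative of the variance in the coordinate `a`. -/
noncomputable def dVar (J : Fin n → Fin n → ℝ) (a : Fin n) (f : Conf n → ℝ) (u : Fin n → ℝ) : ℝ :=
  covAt J a (fun x => f x ^ 2) u - 2 * ev J u f * covAt J a f u

/-- The second derivative of the variance in the coordinate `a`. -/
noncomputable def ddVar (J : Fin n → Fin n → ℝ) (a : Fin n) (f : Conf n → ℝ) (u : Fin n → ℝ) : ℝ :=
  -2 * ev J u (fun x => spin x a) * dVar J a f u - 2 * covAt J a f u ^ 2

lemma spin_sq (x : Conf n) (a : Fin n) : spin x a ^ 2 = 1 := by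
  unfold spin; split_ifs <;> norm_num

lemma expo_add_field (J : Fin n → Fin n → ℝ) (u : Fin n → ℝ) (x : Conf n) :
    expo J u x = expo J 0 x + ∑ i, u i * spin x i := by
  simp [expo]

lemma continuous_ev (J : Fin n → Fin n → ℝ) (g : Conf n → ℝ) :
    Continuous fun u : Fin n → ℝ => ev J u g := by
  simp only [ev, mu, wt, expo]
  refine continuous_finsetSum _ fun x _ => Continuous.mul (Continuous.div ?_ ?_ fun u => ?_)
    continuous_const
  · fun_prop
  · fun_prop
  · exact (sum_pos (fun y _ => exp_pos _) univ_nonempty).ne'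

lemma abs_ev_le (J : Fin n → Fin n → ℝ) (u : Fin n → ℝ) {g : Conf n → ℝ} {B : ℝ}
    (h : ∀ x, |g x| ≤ B) : |ev J u g| ≤ B := by
  rw [abs_le]
  exact ⟨(ev_const J u (-B)).symm.le.trans (ev_mono J u fun x => (abs_le.1 (h x)).1),
    (ev_mono J u fun x => (abs_le.1 (h x)).2).trans_eq (ev_const J u B)⟩

lemma covAt_eq_cov (J : Fin n → Fin n → ℝ) (u : Fin n → ℝ) (v : Fin n → ℝ) (g : Conf n → ℝ) :
    ev J u (fun x => g x * ∑ a, v a * spin x a) -
      ev J u g * ev J u (fun x => ∑ a, v a * spin x a) = ∑ a, v a * covAt J a g u := by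
  simp only [covAt, mul_sub, sum_sub_distrib, mul_sum, ev_sum, ← ev_smul]
  refine congrArg₂ (· - ·) (sum_congr rfl fun a _ => congrArg (ev J u) (funext fun x => by ring))
    ?_
  exact sum_congr rfl fun a _ => by
    exact congrArg (ev J u) (funext fun x => by ring)

lemma sum_wt_pos (J : Fin n → Fin n → ℝ) (u : Fin n → ℝ) : 0 < ∑ x, wt J u x :=
  sum_pos (fun y _ => exp_pos _) univ_nonempty

/-- The derivative of a Gibbs average along a curve of fields. -/
lemma hasDerivAt_ev (J : Fin n → Fin n → ℝ) (g : Conf n → ℝ) {c : ℝ → Fin n → ℝ}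
    {c' : Fin n → ℝ} {t : ℝ} (hc : ∀ a, HasDerivAt (fun s => c s a) (c' a) t) :
    HasDerivAt (fun s => ev J (c s) g) (∑ a, c' a * covAt J a g (c t)) t := by
  have h : ∀ x, HasDerivAt (fun s => wt J (c s) x)
      (wt J (c t) x * ∑ a, c' a * spin x a) t := by
    intro x
    simp only [wt, expo]
    exact ((HasDerivAt.fun_sum (u := univ) fun a _ => (hc a).mul_const (spin x a)).const_add _).exp
  have hN := HasDerivAt.fun_sum (u := univ) fun x _ => (h x).mul_const (g x)
  have hD := HasDerivAt.fun_sum (u := univ) fun x _ => h x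
  have hne := (sum_wt_pos J (c t)).ne'
  have e : (fun s => ev J (c s) g) = fun s => (∑ x, wt J (c s) x * g x) / ∑ x, wt J (c s) x :=
    funext fun s => by
      simp only [ev, mu, sum_div]
      exact sum_congr rfl fun x _ => by ring
  rw [e]
  refine (hN.fun_div hD hne).congr_deriv ?_
  rw [← covAt_eq_cov]
  set L := fun x => ∑ a, c' a * spin x a
  have q : ∀ φ : Conf n → ℝ, ev J (c t) φ = (∑ x, wt J (c t) x * φ x) / ∑ x, wt J (c t) x :=
    fun φ => by
      simp only [ev, mu, sum_div]
      exact sum_congr rfl fun x _ => by ring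
  rw [q, q, q]
  change ((∑ x, wt J (c t) x * L x * g x) * ∑ x, wt J (c t) x -
    (∑ x, wt J (c t) x * g x) * ∑ x, wt J (c t) x * L x) / (∑ x, wt J (c t) x) ^ 2 = _
  rw [show (∑ x, wt J (c t) x * L x * g x) = ∑ x, wt J (c t) x * (g x * L x) from
    sum_congr rfl fun x _ => by ring]
  field_simp
  simp only [L]
  ring

lemma hasDerivAt_update_coord (u : Fin n → ℝ) (a : Fin n) (t : ℝ) (b : Fin n) :
    HasDerivAt (fun s => Function.update u a s b) (if b = a then 1 else 0) t := by
  rcases eq_or_ne b a with rfl | hb
  · simp only [Function.update_self, if_pos]; exact hasDerivAt_id' t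
  · simpa [hb] using hasDerivAt_const t (u b)

lemma hasDerivAt_ev_update (J : Fin n → Fin n → ℝ) (g : Conf n → ℝ) (u : Fin n → ℝ) (a : Fin n)
    (t : ℝ) : HasDerivAt (fun s => ev J (Function.update u a s) g)
      (covAt J a g (Function.update u a t)) t := by
  simpa using hasDerivAt_ev J g (hasDerivAt_update_coord u a t)

lemma var_eq (J : Fin n → Fin n → ℝ) (u : Fin n → ℝ) (f : Conf n → ℝ) :
    var J u f = ev J u (fun x => f x ^ 2) - ev J u f * ev J u f := by rw [var, sq]

lemma hasDerivAt_var (J : Fin n → Fin n → ℝ) (f : Conf n → ℝ) {c : ℝ → Fin n → ℝ}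
    {c' : Fin n → ℝ} {t : ℝ} (hc : ∀ a, HasDerivAt (fun s => c s a) (c' a) t) :
    HasDerivAt (fun s => var J (c s) f) (∑ a, c' a * dVar J a f (c t)) t := by
  simp only [var_eq]
  refine ((hasDerivAt_ev J _ hc).fun_sub
    ((hasDerivAt_ev J f hc).fun_mul (hasDerivAt_ev J f hc))).congr_deriv ?_
  simp only [dVar, mul_sub, sum_sub_distrib, mul_sum, sum_mul]
  rw [← sum_add_distrib]
  exact congrArg₂ (· - ·) rfl (sum_congr rfl fun a _ => by ring)

/-- `∂²_a + 2 m_a ∂_a` annihilates every Gibbs average. -/
lemma hasDerivAt_covAt (J : Fin n → Fin n → ℝ) (g : Conf n → ℝ) (u : Fin n → ℝ) (a : Fin n)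
    (t : ℝ) : HasDerivAt (fun s => covAt J a g (Function.update u a s))
      (-2 * ev J (Function.update u a t) (fun x => spin x a) *
        covAt J a g (Function.update u a t)) t := by
  refine ((hasDerivAt_ev_update J (fun x => g x * spin x a) u a t).fun_sub
    ((hasDerivAt_ev_update J g u a t).fun_mul
      (hasDerivAt_ev_update J (fun x => spin x a) u a t))).congr_deriv ?_
  set v := Function.update u a t
  have e1 : (fun x : Conf n => g x * spin x a * spin x a) = g :=
    funext fun x => by rw [mul_assoc, ← sq, spin_sq, mul_one]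
  have e2 : (fun x : Conf n => spin x a * spin x a) = fun _ => (1:ℝ) :=
    funext fun x => by rw [← sq, spin_sq]
  simp only [covAt, e1, e2, ev_const]
  ring

lemma hasDerivAt_dVar (J : Fin n → Fin n → ℝ) (f : Conf n → ℝ) (u : Fin n → ℝ) (a : Fin n)
    (t : ℝ) : HasDerivAt (fun s => dVar J a f (Function.update u a s))
      (ddVar J a f (Function.update u a t)) t := by
  refine ((hasDerivAt_covAt J _ u a t).fun_sub (((hasDerivAt_ev_update J f u a t).const_mul 2).fun_mul
    (hasDerivAt_covAt J f u a t))).congr_deriv ?_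
  simp only [ddVar, dVar]
  ring

lemma abs_covAt_le (J : Fin n → Fin n → ℝ) (a : Fin n) (u : Fin n → ℝ) {g : Conf n → ℝ} {B : ℝ}
    (h : ∀ x, |g x| ≤ B) : |covAt J a g u| ≤ 2 * B := by
  have hs : ∀ x : Conf n, |spin x a| = 1 := fun x => by
    unfold spin; split_ifs <;> norm_num
  have hB : 0 ≤ B := (abs_nonneg _).trans (h fun _ => true)
  have h1 := abs_ev_le J u (g := fun x => g x * spin x a) (B := B)
    fun x => by rw [abs_mul, hs, mul_one]; exact h x
  have h2 : |ev J u g * ev J u (fun x => spin x a)| ≤ B * 1 := by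
    rw [abs_mul]
    exact mul_le_mul (abs_ev_le J u h) (abs_ev_le J u fun x => (hs x).le) (abs_nonneg _) hB
  exact (abs_sub _ _).trans (by linarith)

lemma abs_dVar_le (J : Fin n → Fin n → ℝ) (a : Fin n) (u : Fin n → ℝ) {f : Conf n → ℝ} {B : ℝ}
    (h : ∀ x, |f x| ≤ B) : |dVar J a f u| ≤ 6 * B ^ 2 := by
  have hB : 0 ≤ B := (abs_nonneg _).trans (h fun _ => true)
  have h1 := abs_covAt_le J a u (g := fun x => f x ^ 2) (B := B ^ 2)
    fun x => by rw [abs_pow]; exact pow_le_pow_left₀ (abs_nonneg _) (h x) 2
  have h2 : |2 * ev J u f * covAt J a f u| ≤ 2 * B * (2 * B) := by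
    rw [abs_mul, abs_mul, abs_two]
    gcongr
    · exact abs_ev_le J u h
    · exact abs_covAt_le J a u h
  exact (abs_sub _ _).trans (by linarith [show 2 * B * (2 * B) = 4 * B ^ 2 by ring])

lemma abs_ddVar_le (J : Fin n → Fin n → ℝ) (a : Fin n) (u : Fin n → ℝ) {f : Conf n → ℝ} {B : ℝ}
    (h : ∀ x, |f x| ≤ B) : |ddVar J a f u| ≤ 20 * B ^ 2 := by
  have hB : 0 ≤ B := (abs_nonneg _).trans (h fun _ => true)
  have hm : |ev J u (fun x => spin x a)| ≤ 1 :=
    abs_ev_le J u fun x => by unfold spin; split_ifs <;> norm_num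
  have h1 : |-2 * ev J u (fun x => spin x a) * dVar J a f u| ≤ 2 * 1 * (6 * B ^ 2) := by
    rw [abs_mul, abs_mul, show |(-2:ℝ)| = 2 by norm_num]
    gcongr
    exact abs_dVar_le J a u h
  have h2 : |2 * covAt J a f u ^ 2| ≤ 2 * (2 * B) ^ 2 := by
    rw [abs_mul, abs_two, abs_pow]
    gcongr
    exact abs_covAt_le J a u h
  exact (abs_sub _ _).trans (by linarith [show (2 * B) ^ 2 = 4 * B ^ 2 by ring])

lemma continuous_var (J : Fin n → Fin n → ℝ) (f : Conf n → ℝ) :
    Continuous fun u : Fin n → ℝ => var J u f := by
  simp only [var_eq]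
  exact (continuous_ev J _).sub ((continuous_ev J f).mul (continuous_ev J f))

lemma continuous_covAt (J : Fin n → Fin n → ℝ) (a : Fin n) (g : Conf n → ℝ) :
    Continuous (covAt J a g) :=
  (continuous_ev J _).sub ((continuous_ev J g).mul (continuous_ev J _))

lemma continuous_dVar (J : Fin n → Fin n → ℝ) (a : Fin n) (f : Conf n → ℝ) :
    Continuous (dVar J a f) :=
  (continuous_covAt J a _).sub ((continuous_const.mul (continuous_ev J f)).mul (continuous_covAt J a f))

lemma continuous_ddVar (J : Fin n → Fin n → ℝ) (a : Fin n) (f : Conf n → ℝ) :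
    Continuous (ddVar J a f) :=
  ((continuous_const.mul (continuous_ev J _)).mul (continuous_dVar J a f)).sub
    (continuous_const.mul ((continuous_covAt J a f).pow 2))

lemma continuous_chan (s : ℝ) (x : Conf n) : Continuous (chan s x) :=
  continuous_pi fun a => by unfold chan; fun_prop

lemma tame_comp_chan {G : (Fin n → ℝ) → ℝ} (hG : Continuous G) {B : ℝ} (hB : ∀ u, |G u| ≤ B)
    (s : ℝ) (x : Conf n) : Tame fun z => G (chan s x z) :=
  Tame.of_bounded (hG.comp (continuous_chan s x)) fun _ => hB _

/-- The posterior of the configuration given the observed field is the tilted measure. -/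
lemma chanAvg_posterior (J : Fin n → Fin n → ℝ) (s : ℝ) (G : Conf n → (Fin n → ℝ) → ℝ)
    (hG : ∀ x, Continuous (G x)) {B : ℝ} (hB : ∀ x u, |G x u| ≤ B) :
    ∑ x, mu J 0 x * ∫ z, G x (chan s x z) ∂gauss (Fin n) =
      chanAvg J s fun u => ev J u fun x => G x u := by
  have shift : ∀ (x : Conf n) {H : (Fin n → ℝ) → ℝ}, Continuous H →
      ∫ z, H (chan s x z) ∂gauss (Fin n) =
        ∫ z, P146.tilt (fun a => s * spin x a) z * H (fun a => s * z a) ∂gauss (Fin n) := by
    intro x H hH
    have hm : Measurable fun z : Fin n → ℝ => fun a => s * spin x a + z a := by fun_prop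
    have hc : Continuous fun z : Fin n → ℝ => H fun a => s * z a :=
      hH.comp (continuous_pi fun a => by fun_prop)
    have ht : Continuous (P146.tilt fun a => s * spin x a) := by unfold P146.tilt; fun_prop
    have h := congrArg (fun μ => ∫ z, H (fun a => s * z a) ∂μ)
      (P146.gauss_shift_eq fun a => s * spin x a)
    simp only [integral_map hm.aemeasurable hc.aestronglyMeasurable] at h
    rw [integral_withDensity_eq_integral_toReal_smul ht.measurable.ennreal_ofReal
      (ae_of_all _ fun z => ENNReal.ofReal_lt_top)] at h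
    refine (Eq.trans ?_ h).trans (integral_congr_ae (ae_of_all _ fun z => ?_))
    · refine integral_congr_ae (ae_of_all _ fun z => congrArg H (funext fun a => ?_))
      simp only [chan]; ring
    · simp only [smul_eq_mul]
      rw [ENNReal.toReal_ofReal]
      exact (exp_pos _).le
  have hint : ∀ (x : Conf n) {H : (Fin n → ℝ) → ℝ}, Continuous H → (∀ u, |H u| ≤ B) →
      Integrable (fun z => P146.tilt (fun a => s * spin x a) z * H fun a => s * z a)
        (gauss (Fin n)) := by
    intro x H hH hHB
    have ht : Integrable (P146.tilt fun a => s * spin x a) (gauss (Fin n)) := by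
      have : Integrable (fun z : Fin n → ℝ =>
          ∏ a, exp (s * spin x a * z a - (s * spin x a) ^ 2 / 2)) (gauss (Fin n)) :=
        Integrable.fintype_prod (f := fun a t => exp (s * spin x a * t - (s * spin x a) ^ 2 / 2))
          fun a => by
            simp only [sub_eq_add_neg, exp_add]
            exact (integrable_exp_mul_gaussianReal _).mul_const _
      refine this.congr (ae_of_all _ fun z => ?_)
      simp only [P146.tilt]
      rw [← exp_sum, sum_sub_distrib]
    exact ht.mul_bdd (c := B) (hH.comp (continuous_pi fun a => by fun_prop)).aestronglyMeasurable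
      (ae_of_all _ fun z => hHB _)
  have key : ∀ z : Fin n → ℝ,
      ∑ x, mu J 0 x * (P146.tilt (fun a => s * spin x a) z * G x fun a => s * z a) =
      ∑ x, mu J 0 x * (P146.tilt (fun a => s * spin x a) z *
        ev J (fun a => s * z a) fun y => G y fun a => s * z a) := by
    intro z
    set u := fun a => s * z a
    have hq : ∀ x, mu J 0 x * P146.tilt (fun a => s * spin x a) z =
        (∑ y, wt J u y) / (∑ y, wt J 0 y) * exp (-(n * s ^ 2 / 2)) * mu J u x := by
      intro x
      have hs2 : ∑ a, (s * spin x a) ^ 2 / 2 = n * s ^ 2 / 2 := by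
        simp [mul_pow, spin_sq]; ring
      have he : exp (expo J 0 x) * P146.tilt (fun a => s * spin x a) z =
          exp (expo J u x) * exp (-(n * s ^ 2 / 2)) := by
        rw [P146.tilt, ← exp_add, ← exp_add, expo_add_field J u, hs2,
          show ∑ i, u i * spin x i = ∑ a, s * spin x a * z a from
            sum_congr rfl fun a _ => by simp only [u]; ring]
        ring_nf
      have h1 := (sum_wt_pos J 0).ne'
      have h2 := (sum_wt_pos J u).ne'
      simp only [mu, wt] at h1 h2 ⊢
      rw [div_mul_eq_mul_div, he]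
      field_simp
    simp only [← mul_assoc, hq]
    simp only [mul_assoc, ← mul_sum]
    congr 2
    rw [← sum_mul, sum_mu, one_mul]
    rfl
  have hev : Continuous fun u => ev J u fun x => G x u := by
    simp only [ev, mu, wt, expo]
    refine continuous_finsetSum _ fun x _ => Continuous.mul (Continuous.div ?_ ?_ fun u => ?_) (hG x)
    · fun_prop
    · fun_prop
    · exact (sum_pos (fun y _ => exp_pos _) univ_nonempty).ne'
  have hevB : ∀ u, |ev J u fun x => G x u| ≤ B := fun u => abs_ev_le J u fun x => hB x u
  have l : ∀ x, mu J 0 x * ∫ z, G x (chan s x z) ∂gauss (Fin n) =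
      ∫ z, mu J 0 x * (P146.tilt (fun a => s * spin x a) z * G x fun a => s * z a) ∂gauss (Fin n) :=
    fun x => by rw [shift x (hG x), integral_const_mul]
  have r : ∀ x, mu J 0 x * ∫ z, (fun u => ev J u fun y => G y u) (chan s x z) ∂gauss (Fin n) =
      ∫ z, mu J 0 x * (P146.tilt (fun a => s * spin x a) z *
        ev J (fun a => s * z a) fun y => G y fun a => s * z a) ∂gauss (Fin n) :=
    fun x => by rw [shift x hev, integral_const_mul]
  simp only [chanAvg, l, r]
  rw [← integral_finsetSum _ fun x _ => (hint x (hG x) (hB x)).const_mul _,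
    ← integral_finsetSum _ fun x _ => (hint x hev hevB).const_mul _]
  exact integral_congr_ae (ae_of_all _ fun z => key z)

/-- Cauchy–Schwarz: a bound on the covariance bounds the squared gradient of `u ↦ E_u f`. -/
lemma sum_covAt_sq_le (J : Fin n → Fin n → ℝ) (u : Fin n → ℝ) {y : ℝ}
    (hY : ∀ v : Fin n → ℝ, var J u (fun x => ∑ a, v a * spin x a) ≤ y * ∑ a, v a ^ 2)
    (f : Conf n → ℝ) : ∑ a, covAt J a f u ^ 2 ≤ y * var J u f := by
  set c := fun a => covAt J a f u
  set S := ∑ a, c a ^ 2
  set L := fun x : Conf n => ∑ a, c a * spin x a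
  have hS : 0 ≤ S := sum_nonneg fun a _ => sq_nonneg _
  have hcov : ev J u (fun x => f x * L x) - ev J u f * ev J u L = S := by
    rw [covAt_eq_cov]; exact sum_congr rfl fun a _ => (sq _).symm
  have hnn : ∀ t : ℝ, 0 ≤ t ^ 2 * var J u f - 2 * t * S + var J u L := by
    intro t
    have hsum : (fun x => (t * f x - L x) ^ 2) =
        fun x => t ^ 2 * f x ^ 2 + (-2 * t * (f x * L x) + L x ^ 2) := funext fun x => by ring
    have h0 : ev J u (fun x => t * f x - L x) ^ 2 ≤ ev J u (fun x => (t * f x - L x) ^ 2) := by
      set m := ev J u (fun x => t * f x - L x)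
      have h := ev_mono J u (f := fun x => 2 * m * (t * f x - L x) + -m ^ 2)
        (g := fun x => (t * f x - L x) ^ 2) fun x => by nlinarith [sq_nonneg (t * f x - L x - m)]
      rw [ev_add, ev_smul, ev_const] at h
      linarith
    have hm : ev J u (fun x => t * f x - L x) = t * ev J u f + -1 * ev J u L := by
      rw [← ev_smul, ← ev_smul, ← ev_add]
      exact congrArg (ev J u) (funext fun x => by ring)
    rw [hsum, ev_add, ev_add, ev_smul, ev_smul, hm] at h0
    rw [← hcov, var, var]
    linarith
  have hL : var J u L ≤ y * S := hY c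
  rcases eq_or_ne (var J u f) 0 with hV | hV
  · rw [hV, mul_zero]
    by_contra hlt
    have hSpos : 0 < S := lt_of_not_ge hlt
    have h := hnn ((y * S + 1) / (2 * S))
    rw [hV, mul_zero, zero_sub] at h
    have e : 2 * ((y * S + 1) / (2 * S)) * S = y * S + 1 := by field_simp
    linarith
  · have hV' : 0 < var J u f := by
      refine lt_of_le_of_ne ?_ hV.symm
      by_contra hneg
      have h1 := lt_of_not_ge hneg
      have h2 := ev_mono J u (f := fun x => 2 * ev J u f * f x + -ev J u f ^ 2)
        (g := fun x => f x ^ 2) fun x => by nlinarith [sq_nonneg (f x - ev J u f)]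
      rw [ev_add, ev_smul, ev_const] at h2
      rw [var] at h1
      linarith
    have h := hnn (S / var J u f)
    have e1 : (S / var J u f) ^ 2 * var J u f = S / var J u f * S := by field_simp
    have h2 : S / var J u f * S ≤ y * S := by linarith
    rcases hS.eq_or_lt with hS0 | hS0
    · have hy : 0 ≤ y := by
        rcases isEmpty_or_nonempty (Fin n) with hn | ⟨⟨a⟩⟩
        · exfalso
          refine hV ?_
          obtain ⟨k, hk⟩ : ∃ k, f = fun _ => k :=
            ⟨f default, funext fun x => congrArg f (Subsingleton.elim _ _)⟩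
          simp [var, hk, ev_const]
        · have := hY (Pi.single a 1)
          have hv0 : 0 ≤ var J u (fun x => ∑ b, (Pi.single a (1:ℝ) : Fin n → ℝ) b * spin x b) := by
            set φ := fun x : Conf n => ∑ b, (Pi.single a (1:ℝ) : Fin n → ℝ) b * spin x b
            have h2 := ev_mono J u (f := fun x => 2 * ev J u φ * φ x + -ev J u φ ^ 2)
              (g := fun x => φ x ^ 2) fun x => by nlinarith [sq_nonneg (φ x - ev J u φ)]
            rw [ev_add, ev_smul, ev_const] at h2
            rw [var]
            linarith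
          simp [Pi.single_apply] at this hv0
          linarith
      rw [← hS0]; positivity
    · exact (div_le_iff₀ hV').1 (le_of_mul_le_mul_right h2 hS0)

lemma var_nonneg (J : Fin n → Fin n → ℝ) (u : Fin n → ℝ) (f : Conf n → ℝ) : 0 ≤ var J u f := by
  have h := ev_mono J u (f := fun x => 2 * ev J u f * f x + -ev J u f ^ 2)
    (g := fun x => f x ^ 2) fun x => by nlinarith [sq_nonneg (f x - ev J u f)]
  rw [ev_add, ev_smul, ev_const] at h
  rw [var]
  linarith

lemma var_le_sq (J : Fin n → Fin n → ℝ) (u : Fin n → ℝ) {f : Conf n → ℝ} {B : ℝ}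
    (h : ∀ x, |f x| ≤ B) : var J u f ≤ B ^ 2 := by
  have := abs_ev_le J u (g := fun x => f x ^ 2) (B := B ^ 2)
    fun x => by rw [abs_pow]; exact pow_le_pow_left₀ (abs_nonneg _) (h x) 2
  rw [var]
  linarith [(abs_le.1 this).2, sq_nonneg (ev J u f)]

/-- The derivative of the expected conditional variance. -/
lemma hasDerivAt_chanAvg_var (J : Fin n → Fin n → ℝ) (f : Conf n → ℝ) (s : ℝ) :
    HasDerivAt (fun r => chanAvg J r fun u => var J u f)
      (-(2 * s) * chanAvg J s fun u => ∑ a, covAt J a f u ^ 2) s := by
  obtain ⟨B, hB⟩ : ∃ B, ∀ x, |f x| ≤ B :=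
    ⟨∑ y, |f y|, fun x => single_le_sum (fun y _ => abs_nonneg (f y)) (mem_univ x)⟩
  have hd : ∀ x : Conf n, HasDerivAt (fun r => ∫ z, var J (chan r x z) f ∂gauss (Fin n))
      (∫ z, ∑ a, (2 * s * spin x a + z a) * dVar J a f (chan s x z) ∂gauss (Fin n)) s := by
    intro x
    refine (hasDerivAt_integral_of_dominated_loc_of_deriv_le (Metric.ball_mem_nhds s one_pos)
      (.of_forall fun r => ((continuous_var J f).comp (continuous_chan r x)).aestronglyMeasurable)
      (tame_comp_chan (continuous_var J f) (B := B ^ 2)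
        (fun u => by rw [abs_of_nonneg (var_nonneg J u f)]; exact var_le_sq J u hB) s x).integrable
      (continuous_finsetSum _ fun a _ => (continuous_const.add (continuous_apply a)).mul
        ((continuous_dVar J a f).comp (continuous_chan s x))).aestronglyMeasurable
      (bound := fun z => ∑ a, (2 * (|s| + 1) + |z a|) * (6 * B ^ 2))
      (F' := fun r z => ∑ a, (2 * r * spin x a + z a) * dVar J a f (chan r x z))
      (ae_of_all _ fun z r hr => ?_)
      (integrable_finsetSum _ fun a _ =>
        ((integrable_const _).add (integrable_eval a).abs).mul_const _)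
      (ae_of_all _ fun z r _ => ?_)).2
    · rw [norm_eq_abs]
      refine (abs_sum_le_sum_abs _ _).trans (sum_le_sum fun a _ => ?_)
      rw [abs_mul]
      have hr' : |r| ≤ |s| + 1 := by
        rw [Metric.mem_ball, Real.dist_eq] at hr
        linarith [abs_sub_abs_le_abs_sub r s]
      have hsp : |spin x a| = 1 := by unfold spin; split_ifs <;> norm_num
      refine mul_le_mul ((abs_add_le _ _).trans (add_le_add ?_ le_rfl)) (abs_dVar_le J a _ hB)
        (abs_nonneg _) (by positivity)
      rw [abs_mul, abs_mul, abs_two, hsp, mul_one]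
      linarith
    · exact hasDerivAt_var J f fun a => by
        have h := (((hasDerivAt_id r).fun_pow 2).mul_const (spin x a)).fun_add
          ((hasDerivAt_id r).mul_const (z a))
        exact h.congr_deriv (by simp)
  refine (HasDerivAt.fun_sum (u := univ) fun x _ => (hd x).const_mul (mu J 0 x)).congr_deriv ?_
  have T1 : ∀ x a, Tame fun z => dVar J a f (chan s x z) := fun x a =>
    tame_comp_chan (continuous_dVar J a f) (abs_dVar_le J a · hB) s x
  have T2 : ∀ x a, Tame fun z => ddVar J a f (chan s x z) := fun x a =>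
    tame_comp_chan (continuous_ddVar J a f) (abs_ddVar_le J a · hB) s x
  have hibp : ∀ x a, ∫ z, (2 * s * spin x a + z a) * dVar J a f (chan s x z) ∂gauss (Fin n) =
      s * ∫ z, (2 * spin x a * dVar J a f (chan s x z) + ddVar J a f (chan s x z))
        ∂gauss (Fin n) := by
    intro x a
    have hc : ∀ g t, chan s x (Function.update g a t) =
        Function.update (chan s x g) a (s ^ 2 * spin x a + s * t) := fun g t => funext fun b => by
      rcases eq_or_ne b a with rfl | hb
      · simp [chan]
      · simp [chan, hb]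
    have hd' : ∀ g t, HasDerivAt (fun r => dVar J a f (chan s x (Function.update g a r)))
        (s * ddVar J a f (chan s x (Function.update g a t))) t := fun g t => by
      simp only [hc]
      refine ((hasDerivAt_dVar J f (chan s x g) a _).comp t
        (((hasDerivAt_id t).const_mul s).const_add (s ^ 2 * spin x a))).congr_deriv ?_
      simp [mul_comm]
    have h := ibp (F := fun z => dVar J a f (chan s x z))
      (D := fun z => s * ddVar J a f (chan s x z)) (i := a) (T1 x a) ((Tame.const s).mul (T2 x a))
      fun g t => by simpa only [update_eq_upd] using hd' g t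
    simp only [add_mul]
    rw [integral_add ((T1 x a).integrable.const_mul _) ((Tame.coord a).mul (T1 x a)).integrable, h,
      integral_add ((T1 x a).integrable.const_mul _) (T2 x a).integrable, integral_const_mul,
      integral_const_mul, integral_const_mul]
    ring
  have hpost : ∀ a, ∑ x, mu J 0 x *
      ∫ z, (2 * spin x a * dVar J a f (chan s x z) + ddVar J a f (chan s x z)) ∂gauss (Fin n) =
      chanAvg J s fun u => -2 * covAt J a f u ^ 2 := by
    intro a
    rw [chanAvg_posterior J s (fun x u => 2 * spin x a * dVar J a f u + ddVar J a f u)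
      (fun x => (continuous_const.mul (continuous_dVar J a f)).add (continuous_ddVar J a f))
      (B := 32 * B ^ 2) fun x u => by
        refine (abs_add_le _ _).trans ?_
        have hsp : |spin x a| = 1 := by unfold spin; split_ifs <;> norm_num
        rw [abs_mul, abs_mul, abs_two, hsp, mul_one]
        linarith [abs_dVar_le J a u hB, abs_ddVar_le J a u hB]]
    refine congrArg (chanAvg J s) (funext fun u => ?_)
    rw [ev_add, ev_const, show (fun x : Conf n => 2 * spin x a * dVar J a f u) =
      fun x => 2 * dVar J a f u * spin x a from funext fun x => by ring, ev_smul]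
    simp only [ddVar]
    ring
  have hswap : ∀ x, ∫ z, ∑ a, (2 * s * spin x a + z a) * dVar J a f (chan s x z) ∂gauss (Fin n) =
      ∑ a, ∫ z, (2 * s * spin x a + z a) * dVar J a f (chan s x z) ∂gauss (Fin n) := fun x =>
    integral_finsetSum _ fun a _ =>
      (((Tame.const (2 * s * spin x a)).add (Tame.coord a)).mul (T1 x a)).integrable
  have hcs : ∀ x, ∫ z, ∑ a, covAt J a f (chan s x z) ^ 2 ∂gauss (Fin n) =
      ∑ a, ∫ z, covAt J a f (chan s x z) ^ 2 ∂gauss (Fin n) := fun x =>
    integral_finsetSum _ fun a _ =>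
      ((tame_comp_chan (continuous_covAt J a f) (abs_covAt_le J a · hB) s x).pow 2).integrable
  simp only [hswap, hibp, mul_sum]
  rw [sum_comm]
  simp only [mul_left_comm _ s, ← mul_sum, hpost, chanAvg, hcs, integral_const_mul]
  simp only [mul_sum]
  rw [sum_comm]
  exact sum_congr rfl fun x _ => sum_congr rfl fun a _ => by ring

lemma continuous_chanAvg (J : Fin n → Fin n → ℝ) {G : (Fin n → ℝ) → ℝ} (hG : Continuous G) {B : ℝ}
    (hB : ∀ u, |G u| ≤ B) : Continuous fun s => chanAvg J s G := by
  refine continuous_finsetSum _ fun x _ => continuous_const.mul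
    (continuous_of_dominated (bound := fun _ => B)
      (fun s => (hG.comp (continuous_chan s x)).aestronglyMeasurable)
      (fun s => ae_of_all _ fun z => by rw [norm_eq_abs]; exact hB _) (integrable_const _)
      (ae_of_all _ fun z => hG.comp (continuous_pi fun a => by unfold chan; fun_prop)))

/-- **Localisation.** A covariance bound `Y`, in expectation mostly below `K` along the channel up
to time `S²`, transfers an inequality for the tilted measures at time `S²` to the measure itself. -/
theorem var_le_chanAvg (J : Fin n → Fin n → ℝ) {Y : (Fin n → ℝ) → ℝ} (hYc : Continuous Y)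
    {By : ℝ} (hYb : ∀ u, |Y u| ≤ By)
    (hY : ∀ u v : Fin n → ℝ, var J u (fun x => ∑ a, v a * spin x a) ≤ Y u * ∑ a, v a ^ 2)
    {K S : ℝ} (hK : 0 ≤ K) (hS : 0 ≤ S) (f : Conf n → ℝ) {B : ℝ} (hf : ∀ x, |f x| ≤ B) :
    var J 0 f ≤ exp (K * S ^ 2) * ((chanAvg J S fun u => var J u f) +
      B ^ 2 * ∫ s in (0:ℝ)..S, 2 * s * chanAvg J s fun u => max (Y u - K) 0) := by
  set φ : ℝ → ℝ := fun s => chanAvg J s fun u => var J u f with hφ
  set err : ℝ → ℝ := fun s => chanAvg J s fun u => max (Y u - K) 0 with herr
  have hexc : Continuous fun u => max (Y u - K) 0 := (hYc.sub continuous_const).max continuous_const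
  have hexb : ∀ u, |max (Y u - K) 0| ≤ By + |K| := fun u => by
    rw [abs_of_nonneg (le_max_right _ _)]
    refine max_le ?_ (add_nonneg ((abs_nonneg _).trans (hYb u)) (abs_nonneg _))
    linarith [(abs_le.1 (hYb u)).2, neg_abs_le K]
  have hec : Continuous err := continuous_chanAvg J hexc hexb
  have henn : ∀ s, 0 ≤ err s := fun s => sum_nonneg fun x _ =>
    mul_nonneg (mu_pos J 0 x).le (integral_nonneg fun z => le_max_right _ _)
  have hic : Continuous fun s => exp (K * S ^ 2) * B ^ 2 * (2 * s * err s) :=
    continuous_const.mul ((continuous_const.mul continuous_id).mul hec)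
  set F : ℝ → ℝ := fun s => exp (K * s ^ 2) * φ s +
    ∫ r in (0:ℝ)..s, exp (K * S ^ 2) * B ^ 2 * (2 * r * err r) with hF
  have hd : ∀ s, HasDerivAt F (exp (K * s ^ 2) * (2 * K * s * φ s +
      -(2 * s) * chanAvg J s fun u => ∑ a, covAt J a f u ^ 2) +
      exp (K * S ^ 2) * B ^ 2 * (2 * s * err s)) s := fun s => by
    have h1 := (((hasDerivAt_id s).fun_pow 2).const_mul K).exp.fun_mul
      (hasDerivAt_chanAvg_var J f s)
    refine (h1.fun_add (hic.integral_hasStrictDerivAt 0 s).hasDerivAt).congr_deriv ?_
    simp only [id_eq, hφ]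
    ring
  have hbound : ∀ s, (chanAvg J s fun u => ∑ a, covAt J a f u ^ 2) ≤ K * φ s + B ^ 2 * err s := by
    intro s
    simp only [hφ, herr, chanAvg, mul_sum, ← sum_add_distrib, mul_left_comm K, mul_left_comm (B ^ 2),
      ← mul_add]
    refine sum_le_sum fun x _ => mul_le_mul_of_nonneg_left ?_ (mu_pos J 0 x).le
    have i1 : Integrable (fun z => var J (chan s x z) f) (gauss (Fin n)) :=
      (tame_comp_chan (continuous_var J f) (B := B ^ 2)
        (fun u => by rw [abs_of_nonneg (var_nonneg J u f)]; exact var_le_sq J u hf) s x).integrable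
    have i2 : Integrable (fun z => max (Y (chan s x z) - K) 0) (gauss (Fin n)) :=
      (tame_comp_chan hexc hexb s x).integrable
    have i3 : Integrable (fun z => ∑ a, covAt J a f (chan s x z) ^ 2) (gauss (Fin n)) :=
      integrable_finsetSum _ fun a _ =>
        ((tame_comp_chan (continuous_covAt J a f) (abs_covAt_le J a · hf) s x).pow 2).integrable
    rw [← integral_const_mul, ← integral_const_mul, ← integral_add (i1.const_mul _) (i2.const_mul _)]
    refine integral_mono i3 ((i1.const_mul _).add (i2.const_mul _)) fun z => ?_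
    set u := chan s x z
    refine (sum_covAt_sq_le J u (hY u) f).trans ?_
    change Y u * var J u f ≤ K * var J u f + B ^ 2 * max (Y u - K) 0
    calc Y u * var J u f ≤ K * var J u f + max (Y u - K) 0 * var J u f := by
          rw [← add_mul]
          exact mul_le_mul_of_nonneg_right (by linarith [le_max_left (Y u - K) 0])
            (var_nonneg J u f)
      _ ≤ _ := by
          rw [mul_comm (B ^ 2)]
          exact add_le_add le_rfl (mul_le_mul_of_nonneg_left (var_le_sq J u hf) (le_max_right _ _))
  have hmono : MonotoneOn F (Set.Icc 0 S) := by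
    refine monotoneOn_of_deriv_nonneg (convex_Icc 0 S)
      (fun s _ => (hd s).continuousAt.continuousWithinAt)
      (fun s _ => (hd s).differentiableAt.differentiableWithinAt) fun s hs => ?_
    rw [(hd s).deriv]
    rw [interior_Icc] at hs
    have he : exp (K * s ^ 2) ≤ exp (K * S ^ 2) :=
      exp_le_exp.2 (mul_le_mul_of_nonneg_left (pow_le_pow_left₀ hs.1.le hs.2.le 2) hK)
    have h1 := mul_le_mul_of_nonneg_left (hbound s)
      (mul_nonneg (exp_pos (K * s ^ 2)).le (by linarith [hs.1] : 0 ≤ 2 * s))
    have h2 : exp (K * s ^ 2) * (B ^ 2 * (2 * s * err s)) ≤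
        exp (K * S ^ 2) * (B ^ 2 * (2 * s * err s)) :=
      mul_le_mul_of_nonneg_right he
        (mul_nonneg (sq_nonneg B) (mul_nonneg (by linarith [hs.1]) (henn s)))
    linarith
  have h0 : F 0 = var J 0 f := by
    have hc : ∀ (x : Conf n) z, chan 0 x z = 0 := fun x z => funext fun a => by simp [chan]
    simp [hF, hφ, chanAvg, hc, ← sum_mul, sum_mu]
  have hS' := hmono (Set.left_mem_Icc.2 hS) (Set.right_mem_Icc.2 hS) hS
  rw [h0] at hS'
  refine hS'.trans (le_of_eq ?_)
  simp only [hF, hφ, herr, intervalIntegral.integral_const_mul]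
  ring

lemma dd_cond {J : Fin n → Fin n → ℝ} (hJ : IsCoupling J) (v : Fin n → ℝ) (i : Fin n)
    (f : Conf n → ℝ) (x : Conf n) : dd (cond J v i f) i x = 0 := by
  have hfun : cond J v i f = fun y => f y - proj J v i f y :=
    funext fun y => by rw [← cond_eq hJ]; ring
  rw [hfun]
  simp only [dd, proj, mag_update hJ, spin_update_self, sgn, if_true, Bool.false_eq_true, if_false,
    Function.update_idem]
  ring

lemma continuous_dir {J : Fin n → Fin n → ℝ} (hJ : IsCoupling J) (f : Conf n → ℝ) :
    Continuous fun u : Fin n → ℝ => dir J u f := by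
  simp only [dir_eq_form hJ, form]
  refine continuous_finsetSum _ fun i _ => continuous_finsetSum _ fun x _ => ?_
  refine Continuous.mul ?_ (Continuous.mul (continuous_const.sub (Continuous.pow ?_ 2))
    continuous_const)
  · simp only [mu, wt, expo]
    refine Continuous.div ?_ ?_ fun u => (sum_pos (fun y _ => exp_pos _) univ_nonempty).ne'
    · fun_prop
    · fun_prop
  · simp only [mag, localField, Real.tanh_eq_sinh_div_cosh]
    exact Continuous.div (by fun_prop) (by fun_prop) fun u => (Real.cosh_pos _).ne' 

/-- The squared error of the heat-bath prediction of the untilted measure at one site. -/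
noncomputable def condErr (J : Fin n → Fin n → ℝ) (i : Fin n) (f : Conf n → ℝ) (x : Conf n) : ℝ :=
  (f x - cond J 0 i f x) ^ 2

lemma exists_bound_cond (J : Fin n → Fin n → ℝ) (f : Conf n → ℝ) :
    ∃ B, ∀ i x, |condErr J i f x| ≤ B := by
  refine ⟨∑ p : Fin n × Conf n, |condErr J p.1 f p.2|, fun i x => ?_⟩
  exact single_le_sum (f := fun p : Fin n × Conf n => |condErr J p.1 f p.2|)
    (fun p _ => abs_nonneg _) (mem_univ (i, x))

/-- Heat bath is the best prediction from the other spins. -/
lemma dir_le_condErr {J : Fin n → Fin n → ℝ} (hJ : IsCoupling J) (u : Fin n → ℝ)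
    (f : Conf n → ℝ) : dir J u f ≤ ∑ i, ev J u (condErr J i f) := by
  rw [dir_eq_form hJ]
  refine sum_le_sum fun i _ => ?_
  set D : Conf n → ℝ := fun x => cond J u i f x - cond J 0 i f x with hD
  have e : condErr J i f = fun x => proj J u i f x * proj J u i f x +
      (2 * (D x * proj J u i f x) + D x ^ 2) := funext fun x => by
    rw [condErr, ← cond_eq hJ, hD]; ring
  have hz : ∀ x, dd D i x = 0 := fun x => by
    have h1 := dd_cond hJ u i f x
    have h2 := dd_cond hJ 0 i f x
    simp only [hD, dd] at h1 h2 ⊢
    linarith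
  rw [e, ev_add, ev_add, ev_proj_sq hJ, ev_smul, ev_mul_proj hJ]
  have hf0 : form J u i D f = 0 := by simp [form, hz, ev_const]
  have hnn : 0 ≤ ev J u fun x => D x ^ 2 :=
    (ev_const J u 0).symm.le.trans (ev_mono J u fun x => sq_nonneg _)
  linarith

/-- The expected Dirichlet form of the tilted measures is at most that of the measure. -/
theorem chanAvg_dir_le {J : Fin n → Fin n → ℝ} (hJ : IsCoupling J) (s : ℝ) (f : Conf n → ℝ) :
    (chanAvg J s fun u => dir J u f) ≤ dir J 0 f := by
  obtain ⟨B, hB⟩ := exists_bound_cond J f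
  set Q : (Fin n → ℝ) → Fin n → ℝ :=
    fun u i => ev J u (condErr J i f) with hQ
  have hle : ∀ u, dir J u f ≤ ∑ i, Q u i := fun u => dir_le_condErr hJ u f
  have hQc : ∀ i, Continuous fun u => Q u i := fun i => continuous_ev J _
  have hQb : ∀ i u, |Q u i| ≤ B := fun i u => abs_ev_le J u (hB i)
  have hdc : Continuous fun u => dir J u f := continuous_dir hJ f
  have hdb : ∀ u, |dir J u f| ≤ n * B := by
    intro u
    have h0 : 0 ≤ dir J u f := by
      rw [dir_eq_form hJ]
      exact sum_nonneg fun i _ => (ev_const J u 0).symm.le.trans (ev_mono J u fun x =>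
        mul_nonneg (by linarith [mag_sq_lt J u i x]) (mul_self_nonneg _))
    rw [abs_of_nonneg h0]
    refine (hle u).trans ((sum_le_sum fun i _ => (le_abs_self _).trans (hQb i u)).trans_eq ?_)
    simp
  calc (chanAvg J s fun u => dir J u f) ≤ chanAvg J s fun u => ∑ i, Q u i := by
        refine sum_le_sum fun x _ => mul_le_mul_of_nonneg_left ?_ (mu_pos J 0 x).le
        exact integral_mono (tame_comp_chan hdc hdb s x).integrable
          (integrable_finsetSum _ fun i _ => (tame_comp_chan (hQc i) (hQb i) s x).integrable)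
          fun z => hle _
    _ = ∑ i, chanAvg J s fun u => Q u i := by
        simp only [chanAvg]
        rw [sum_comm]
        refine sum_congr rfl fun x _ => ?_
        rw [integral_finsetSum _ fun i _ => (tame_comp_chan (hQc i) (hQb i) s x).integrable,
          mul_sum]
    _ = ∑ i, Q 0 i := sum_congr rfl fun i _ => by
        have h := chanAvg_posterior J s (fun x _ => condErr J i f x)
          (fun x => continuous_const) (B := B) fun x _ => hB i x
        simp only [integral_const, probReal_univ, one_smul] at h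
        simp only [hQ]
        rw [← h, ev]
    _ = dir J 0 f := by
        rw [dir_eq_form hJ]
        exact sum_congr rfl fun i _ => by
          rw [← ev_proj_sq hJ]
          simp only [hQ]
          refine congrArg (ev J 0) (funext fun x => ?_)
          rw [condErr, ← cond_eq hJ]
          ring

end Vale.Agent.P150.Weak.Local
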