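import Vale.Agent.P150.Weak.Found.Deriv
import Vale.Agent.P150.Weak.Local.Localise
import Vale.Agent.P150.Gap.Repair
import Vale.Agent.P150.Dynamics

/-!
Elementary facts on Ising averages: field derivatives, gauge transformations, the covariance norm.
-/

open Finset

namespace Vale.Agent.P150.Weak.Local

open Gap

variable {n : ℕ}

lemma quad_le_op (A : Mat n) (a : Vec n) : ∑ i, ∑ j, a i * A i j * a j ≤ op A * sq1 a := by
  set v : EuclideanSpace ℝ (Fin n) := WithLp.toLp 2 a
  set L := Matrix.toEuclideanCLM (𝕜 := ℝ) (Matrix.of A)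
  have h1 : ∀ i, L v i = ∑ j, A i j * a j := fun i => by
    simp [L, v, Matrix.mulVec, dotProduct]
  have h2 : inner ℝ v (L v) = ∑ i, ∑ j, a i * A i j * a j := by
    rw [PiLp.inner_apply]
    refine sum_congr rfl fun i _ => ?_
    simp only [Real.inner_apply, h1, mul_sum, v]
    exact sum_congr rfl fun j _ => by ring
  rw [← h2]
  have h3 : sq1 a = ‖v‖ ^ 2 := by
    rw [EuclideanSpace.norm_sq_eq]
    simp [sq1, v, sq_abs]
  rw [h3, op, sq, ← mul_assoc]
  exact le_trans (real_inner_le_norm _ _) (by
    rw [mul_comm]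
    exact mul_le_mul_of_nonneg_right (L.le_opNorm v) (norm_nonneg v))

lemma op_nonneg (A : Mat n) : 0 ≤ op A := norm_nonneg _

/-- The covariance norm dominates the variance of every linear statistic. -/
lemma var_lin_le (J : Mat n) (u : Vec n) (v : Vec n) :
    var J u (fun x => ∑ a, v a * spin x a) ≤ op (cm2 J u) * ∑ a, v a ^ 2 := by
  refine le_trans (le_of_eq ?_) (quad_le_op (cm2 J u) v)
  have e : (fun x => (∑ a, v a * csp J u a x) ^ 2) = fun x =>
      ((∑ a, v a * spin x a) ^ 2 + (-2 * ∑ a, v a * mg J u a) * ∑ a, v a * spin x a) +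
        (∑ a, v a * mg J u a) ^ 2 := by
    funext x
    simp only [csp, mul_sub, sum_sub_distrib]
    ring
  have hm : (ev J u fun x => ∑ a, v a * spin x a) = ∑ a, v a * mg J u a := by
    simp only [ev_sum, ev_smul, mg]
  have h := cm2_quad J u v
  rw [e, ev_add, ev_add, ev_smul, ev_const, hm] at h
  rw [var, hm]
  refine Eq.trans ?_ (sum_congr rfl fun i _ => sum_congr rfl fun j _ =>
    show cm2 J u i j * v i * v j = v i * cm2 J u i j * v j by ring)
  linarith

lemma continuous_op : Continuous (op : Mat n → ℝ) := by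
  have h : Continuous fun A : Mat n => Matrix.toEuclideanCLM (𝕜 := ℝ) (Matrix.of A) := by
    let L : Mat n →ₗ[ℝ] (EuclideanSpace ℝ (Fin n) →L[ℝ] EuclideanSpace ℝ (Fin n)) :=
      { toFun := fun A => Matrix.toEuclideanCLM (𝕜 := ℝ) (Matrix.of A)
        map_add' := fun A B => map_add _ (Matrix.of A) (Matrix.of B)
        map_smul' := fun r A => map_smul _ r (Matrix.of A) }
    exact L.continuous_of_finiteDimensional
  exact h.norm

lemma continuous_op_cm2 : Continuous fun q : Mat n × Vec n => op (cm2 q.1 q.2) :=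
  continuous_op.comp (continuous_pi fun i => continuous_pi fun j => continuous_cm2 i j)

lemma exists_op_cm2_le (n : ℕ) : ∃ R : ℝ, ∀ (J : Mat n) (u : Vec n), op (cm2 J u) ≤ R := by
  obtain ⟨R, hR⟩ := (isCompact_univ_pi fun _ : Fin n => isCompact_univ_pi fun _ : Fin n =>
    isCompact_Icc (a := (-4:ℝ)) (b := 4)).exists_bound_of_continuousOn continuous_op.continuousOn
  exact ⟨R, fun J u => (le_abs_self _).trans (hR (cm2 J u) fun i _ j _ =>
    ⟨(abs_le.1 (abs_cm2_le J u i j)).1, (abs_le.1 (abs_cm2_le J u i j)).2⟩)⟩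

/-! ### Gauge transformations -/

/-- Site-wise product of configurations. -/
def cmul (x y : Conf n) : Conf n := fun i => x i == y i

lemma spin_cmul (x y : Conf n) (i : Fin n) : spin (cmul x y) i = spin x i * spin y i := by
  cases hx : x i <;> cases hy : y i <;> simp [spin, cmul, hx, hy]

lemma cmul_cmul (x y : Conf n) : cmul x (cmul x y) = y := by
  funext i
  cases hx : x i <;> cases hy : y i <;> simp [cmul, hx, hy]

lemma cmul_self (x : Conf n) : cmul x x = fun _ => true := by
  funext i
  simp [cmul]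

lemma cmul_comm (x y : Conf n) : cmul x y = cmul y x := by
  funext i
  cases hx : x i <;> cases hy : y i <;> simp [cmul, hx, hy]

lemma sum_cmul (x : Conf n) (F : Conf n → ℝ) : ∑ y, F (cmul x y) = ∑ y, F y :=
  Equiv.sum_comp (Function.Involutive.toPerm (cmul x) (cmul_cmul x)) F

/-- Gauge transformation of couplings. -/
def gmat (x : Conf n) (J : Mat n) : Mat n := fun i j => spin x i * spin x j * J i j

/-- Gauge transformation of fields. -/
def gvec (x : Conf n) (u : Vec n) : Vec n := fun i => spin x i * u i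

lemma gvec_gvec (x : Conf n) (u : Vec n) : gvec x (gvec x u) = u := by
  funext i
  simp only [gvec, ← mul_assoc, Gap.spin_sq, one_mul]

lemma gvec_zero (x : Conf n) : gvec x (0 : Vec n) = 0 := by
  funext i
  simp [gvec]

lemma expo_gauge (x : Conf n) (J : Mat n) (u : Vec n) (y : Conf n) :
    expo (gmat x J) (gvec x u) y = expo J u (cmul x y) := by
  simp only [expo, gmat, gvec, spin_cmul]
  congr 1
  · congr 1
    exact sum_congr rfl fun i _ => sum_congr rfl fun j _ => by ring
  · exact sum_congr rfl fun i _ => by ring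

lemma mu_gauge (x : Conf n) (J : Mat n) (u : Vec n) (y : Conf n) :
    mu (gmat x J) (gvec x u) y = mu J u (cmul x y) := by
  simp only [mu, wt, expo_gauge]
  rw [sum_cmul x fun y => Real.exp (expo J u y)]

lemma ev_gauge (x : Conf n) (J : Mat n) (u : Vec n) (f : Conf n → ℝ) :
    ev (gmat x J) (gvec x u) f = ev J u fun y => f (cmul x y) := by
  simp only [ev, mu_gauge]
  rw [← sum_cmul x (fun y => mu J u y * f (cmul x y))]
  simp [cmul_cmul]

lemma mg_gauge (x : Conf n) (J : Mat n) (u : Vec n) :
    mg (gmat x J) (gvec x u) = gvec x (mg J u) := by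
  funext i
  simp only [mg, ev_gauge, gvec, spin_cmul]
  exact ev_smul J u (spin x i) fun y => spin y i

lemma cm2_gauge (x : Conf n) (J : Mat n) (u : Vec n) :
    cm2 (gmat x J) (gvec x u) = gmat x (cm2 J u) := by
  funext i j
  simp only [cm2, ev_gauge, gmat, csp, mg_gauge, gvec, spin_cmul]
  rw [← ev_smul]
  exact congrArg _ (funext fun y => by ring)

lemma op_gmat_le (x : Conf n) (A : Mat n) : op (gmat x A) ≤ op A := by
  refine ContinuousLinearMap.opNorm_le_bound _ (op_nonneg A) fun v => ?_
  set L := Matrix.toEuclideanCLM (𝕜 := ℝ) (Matrix.of A)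
  set G := Matrix.toEuclideanCLM (𝕜 := ℝ) (Matrix.of (gmat x A))
  set v' : EuclideanSpace ℝ (Fin n) := WithLp.toLp 2 (gvec x v.ofLp)
  have hv : ‖v'‖ = ‖v‖ := by
    rw [EuclideanSpace.norm_eq, EuclideanSpace.norm_eq]
    congr 1
    refine sum_congr rfl fun i _ => ?_
    simp [v', gvec, abs_spin]
  have h1 : ‖G v‖ = ‖L v'‖ := by
    rw [EuclideanSpace.norm_eq, EuclideanSpace.norm_eq]
    congr 1
    refine sum_congr rfl fun i _ => ?_
    simp only [G, L, v', Matrix.ofLp_toEuclideanCLM, Matrix.mulVec, dotProduct, Matrix.of_apply,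
      gmat, gvec]
    rw [show (∑ j, spin x i * spin x j * A i j * v.ofLp j) =
      spin x i * ∑ j, A i j * (spin x j * v.ofLp j) from by
        rw [mul_sum]; exact sum_congr rfl fun j _ => by ring]
    simp [abs_spin]
  rw [h1, ← hv]
  exact L.le_opNorm v'

lemma op_cm2_gauge (x : Conf n) (J : Mat n) (u : Vec n) :
    op (cm2 (gmat x J) (gvec x u)) = op (cm2 J u) := by
  refine le_antisymm (by rw [cm2_gauge]; exact op_gmat_le x _) ?_
  have h : gmat x (gmat x (cm2 J u)) = cm2 J u := by
    funext i j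
    simp only [gmat]
    linear_combination (spin x j * spin x j * cm2 J u i j) * Gap.spin_sq x i +
      cm2 J u i j * Gap.spin_sq x j
  conv_lhs => rw [← h]
  rw [cm2_gauge]
  exact op_gmat_le x _

end Vale.Agent.P150.Weak.Local
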