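import Vale.Agent.P150.Weak.Local.Moments
import Vale.Agent.P150.Weak.GaussPoinc

/-!
For `β < 1` the normalised partition function of the null disorder is bounded below in
probability.
-/

open MeasureTheory ProbabilityTheory Finset Filter
open scoped Topology

namespace Vale.Agent.P150.Weak.Local

open Gap

variable {n : ℕ}

/-- The gradient of `log zbar`. -/
noncomputable def gradL (v : ℝ) (g : Edge n → ℝ) (e : Edge n) : ℝ :=
  √v * ((∑ x : Conf n, pairSpin x e * lik v x g) / ∑ x : Conf n, lik v x g)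

lemma sum_lik_pos (v : ℝ) (g : Edge n → ℝ) : 0 < ∑ x : Conf n, lik v x g :=
  sum_pos (fun _ _ => Real.exp_pos _) univ_nonempty

lemma tangent (v : ℝ) (g g₀ : Edge n → ℝ) :
    Real.log (zbar v g₀) + ∑ e, gradL v g₀ e * (g e - g₀ e) ≤ Real.log (zbar v g) := by
  have hN : (0:ℝ) < Fintype.card (Conf n) := by exact_mod_cast Fintype.card_pos
  rw [zbar, zbar, Real.log_div (sum_lik_pos v g₀).ne' hN.ne',
    Real.log_div (sum_lik_pos v g).ne' hN.ne']
  have h := lse_tangent (fun x => Real.log (lik v x g₀)) (fun x : Conf n => Real.log (lik v x g))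
  have e1 : ∀ g' x, Real.exp (Real.log (lik v x g')) = lik (n := n) v x g' :=
    fun g' x => Real.exp_log (Real.exp_pos _)
  simp only [lse, gAvg, e1] at h
  have e2 : ∑ e, gradL v g₀ e * (g e - g₀ e) =
      (∑ x : Conf n, lik v x g₀ * (Real.log (lik v x g) - Real.log (lik v x g₀))) /
        ∑ x : Conf n, lik v x g₀ := by
    simp only [gradL, lik, P146.tilt, Real.log_exp]
    simp only [sub_sub_sub_cancel_right, ← sum_sub_distrib, mul_sum, sum_div, sum_mul, mul_div_assoc]
    rw [sum_comm]
    exact sum_congr rfl fun x _ => sum_congr rfl fun e _ => by ring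
  linarith

lemma gradL_sq (v : ℝ) (hv : 0 ≤ v) (g : Edge n → ℝ) :
    ∑ e, gradL v g e ^ 2 = gradW v g / zbar v g ^ 2 := by
  have hN : (Fintype.card (Conf n) : ℝ) ≠ 0 := by exact_mod_cast Fintype.card_pos.ne'
  have hS := (sum_lik_pos v g).ne'
  simp only [gradL, mul_pow, Real.sq_sqrt hv, gradW, zbar, ← mul_sum]
  rw [mul_div_assoc, sum_div]
  congr 1
  exact sum_congr rfl fun e _ => by field_simp

section Soft

variable {ι : Type*} [Fintype ι] [Nonempty ι]

/-- A soft maximum of affine forms. -/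
noncomputable def softmax (β : ℝ) (c : ι → ℝ) (w : ι → Edge n → ℝ) (g : Edge n → ℝ) : ℝ :=
  lse (fun k => β * (c k + ∑ e, w k e * g e)) / β

/-- The weights of the soft maximum. -/
noncomputable def softWt (β : ℝ) (c : ι → ℝ) (w : ι → Edge n → ℝ) (g : Edge n → ℝ) (k : ι) : ℝ :=
  Real.exp (β * (c k + ∑ e, w k e * g e)) / ∑ j, Real.exp (β * (c j + ∑ e, w j e * g e))

omit [Fintype ι] [Nonempty ι] in
lemma continuous_affine (β : ℝ) (c : ι → ℝ) (w : ι → Edge n → ℝ) (k : ι) :
    Continuous fun g : Edge n → ℝ => β * (c k + ∑ e, w k e * g e) := by fun_prop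

lemma continuous_softmax (β : ℝ) (c : ι → ℝ) (w : ι → Edge n → ℝ) :
    Continuous (softmax β c w) :=
  (Continuous.log (continuous_finsetSum _ fun k _ =>
    Real.continuous_exp.comp (continuous_affine β c w k)) fun _ => (sum_exp_pos _).ne').div_const _

lemma continuous_softWt (β : ℝ) (c : ι → ℝ) (w : ι → Edge n → ℝ) (k : ι) :
    Continuous fun g => softWt β c w g k :=
  (Real.continuous_exp.comp (continuous_affine β c w k)).div₀ (continuous_finsetSum _ fun j _ =>
    Real.continuous_exp.comp (continuous_affine β c w j)) fun _ => (sum_exp_pos _).ne'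

lemma hasDerivAt_softmax [hdec : DecidableEq (Edge n)] {β : ℝ} (hβ : β ≠ 0) (c : ι → ℝ) (w : ι → Edge n → ℝ) (e : Edge n)
    (g : Edge n → ℝ) (s : ℝ) :
    HasDerivAt (fun r => softmax β c w (Function.update g e r))
      (∑ k, softWt β c w (Function.update g e s) k * w k e) s := by
  have ea : ∀ k r, ∑ e', w k e' * Function.update g e r e' =
      (∑ e', w k e' * g e') + w k e * (r - g e) := by
    intro k r
    rw [← sub_eq_iff_eq_add', ← sum_sub_distrib, Fintype.sum_eq_single e fun e' he => by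
      simp [Function.update_of_ne he]]
    simp [mul_sub]
  have h1 : ∀ k, HasDerivAt
      (fun r => β * (c k + ((∑ e', w k e' * g e') + w k e * (r - g e)))) (β * w k e) s := fun k => by
    have := ((((hasDerivAt_id' s).sub_const (g e)).const_mul (w k e)).const_add
      (∑ e', w k e' * g e')).const_add (c k)
    simpa using this.const_mul β
  simp only [softmax, softWt, lse, ea]
  refine (((HasDerivAt.fun_sum (u := univ) fun k _ => (h1 k).exp).log
    (sum_exp_pos _).ne').div_const β).congr_deriv ?_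
  rw [sum_div, sum_div]
  exact sum_congr rfl fun k _ => by field_simp

lemma tame_softmax {β : ℝ} (hβ : 0 < β) (c : ι → ℝ) (w : ι → Edge n → ℝ) :
    Tame (softmax β c w) := by
  set B := ∑ k : ι, ∑ e, |w k e| with hB
  have hB0 : 0 ≤ B := sum_nonneg fun _ _ => sum_nonneg fun _ _ => abs_nonneg _
  refine ⟨continuous_softmax β c w, |softmax β c w 0| + B, 1, fun g => ?_⟩
  have h := abs_lse_sub_le (v := fun k => β * (c k + ∑ e, w k e * (0 : Edge n → ℝ) e))
    (w := fun k => β * (c k + ∑ e, w k e * g e)) (M := β * (B * ∑ e, |g e|)) fun k => by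
      simp only [Pi.zero_apply, mul_zero, sum_const_zero, add_zero]
      rw [← mul_sub, abs_mul, abs_of_pos hβ, add_sub_cancel_left, mul_sum]
      refine mul_le_mul_of_nonneg_left ?_ hβ.le
      refine (abs_sum_le_sum_abs _ _).trans (sum_le_sum fun e _ => ?_)
      rw [abs_mul]
      refine mul_le_mul_of_nonneg_right ?_ (abs_nonneg _)
      exact (single_le_sum (f := fun e => |w k e|) (fun _ _ => abs_nonneg _)
        (mem_univ e)).trans (single_le_sum (f := fun j : ι => ∑ e, |w j e|)
          (fun _ _ => sum_nonneg fun _ _ => abs_nonneg _) (mem_univ k))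
  have h2 : |softmax β c w g - softmax β c w 0| ≤ B * ∑ e, |g e| := by
    rw [softmax, softmax, ← sub_div, abs_div, abs_of_pos hβ, div_le_iff₀ hβ]
    linarith
  rw [pow_one]
  have h3 := abs_sub_abs_le_abs_sub (softmax β c w g) (softmax β c w 0)
  have h4 : 0 ≤ ∑ e, |g e| := sum_nonneg fun _ _ => abs_nonneg _
  nlinarith [abs_nonneg (softmax β c w 0)]

lemma softmax_grad_le {β M : ℝ} (c : ι → ℝ) (w : ι → Edge n → ℝ)
    (hM : ∀ k, ∑ e, w k e ^ 2 ≤ M) (g : Edge n → ℝ) :
    ∑ e, (∑ k, softWt β c w g k * w k e) ^ 2 ≤ M := by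
  have hπ0 : ∀ k, 0 ≤ softWt β c w g k := fun k =>
    div_nonneg (Real.exp_pos _).le (sum_exp_pos _).le
  have hπ1 : ∑ k, softWt β c w g k = 1 := by
    simp only [softWt]
    rw [← sum_div, div_self (sum_exp_pos _).ne']
  calc ∑ e, (∑ k, softWt β c w g k * w k e) ^ 2
      ≤ ∑ e, ∑ k, softWt β c w g k * w k e ^ 2 := sum_le_sum fun e _ => by
        have h := Finset.sum_sq_le_sum_mul_sum_of_sq_le_mul (univ : Finset ι)
          (r := fun k => softWt β c w g k * w k e) (f := fun k => softWt β c w g k)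
          (g := fun k => softWt β c w g k * w k e ^ 2) (fun k _ => hπ0 k)
          (fun k _ => mul_nonneg (hπ0 k) (sq_nonneg _)) fun k _ => le_of_eq (by ring)
        rwa [hπ1, one_mul] at h
    _ = ∑ k, softWt β c w g k * ∑ e, w k e ^ 2 := by rw [sum_comm]; simp only [mul_sum]
    _ ≤ ∑ k, softWt β c w g k * M := sum_le_sum fun k _ =>
        mul_le_mul_of_nonneg_left (hM k) (hπ0 k)
    _ = M := by rw [← sum_mul, hπ1, one_mul]

lemma softmax_variance {β M : ℝ} (hβ : 0 < β) (c : ι → ℝ) (w : ι → Edge n → ℝ)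
    (hM : ∀ k, ∑ e, w k e ^ 2 ≤ M) :
    ∫ g, (softmax β c w g - ∫ g', softmax β c w g' ∂gauss (Edge n)) ^ 2 ∂gauss (Edge n) ≤ M := by
  set A := ∫ g', softmax β c w g' ∂gauss (Edge n) with hA
  have ht := tame_softmax hβ c w
  have hc : ∀ e, Continuous fun g => (∑ k, softWt β c w g k * w k e) ^ 2 := fun e =>
    (continuous_finsetSum _ fun k _ => (continuous_softWt β c w k).mul continuous_const).pow 2
  have hb : ∀ e g, |(∑ k, softWt β c w g k * w k e) ^ 2| ≤ M := fun e g => by
    rw [abs_of_nonneg (sq_nonneg _)]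
    exact (single_le_sum (f := fun e => (∑ k, softWt β c w g k * w k e) ^ 2)
      (fun _ _ => sq_nonneg _) (mem_univ e)).trans (softmax_grad_le c w hM g)
  have hi : ∀ e, Integrable (fun g => (∑ k, softWt β c w g k * w k e) ^ 2) (gauss (Edge n)) :=
    fun e => integrable_gauss_bound (hc e) (hb e)
  have hp := poincare ht.1 ht.memLp_two
    (D := fun e g => ∑ k, softWt β c w g k * w k e)
    (fun e => continuous_finsetSum _ fun k _ => (continuous_softWt β c w k).mul continuous_const)
    (hasDerivAt_softmax (hdec := fun a b => Classical.propDecidable (a = b)) hβ.ne' c w) hi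
  have hle : ∫ g, ∑ e, (∑ k, softWt β c w g k * w k e) ^ 2 ∂gauss (Edge n) ≤ M :=
    (integral_mono (integrable_finsetSum _ fun e _ => hi e) (integrable_const M)
      (softmax_grad_le c w hM)).trans_eq (by simp)
  have e : (fun g => (softmax β c w g - A) ^ 2) =
      fun g => softmax β c w g ^ 2 + ((-2 * A) * softmax β c w g + A ^ 2) := funext fun g => by ring
  have i2 : Integrable (fun g => (-2 * A) * softmax β c w g) (gauss (Edge n)) :=
    ht.integrable.const_mul _
  rw [e, integral_add (ht.pow 2).integrable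
      (show Integrable (fun g => (-2 * A) * softmax β c w g + A ^ 2) (gauss (Edge n)) from
        i2.add (integrable_const _)),
    integral_add i2 (integrable_const _), integral_const_mul, integral_const, probReal_univ,
    one_smul, ← hA]
  rw [← hA] at hp
  nlinarith [hp, hle]

end Soft

/-- A smooth minorant with bounded gradient, built on finitely many tangents. -/
theorem exists_minorant (v M : ℝ) (t : Finset (Edge n → ℝ)) (ht : t.Nonempty)
    (hM : ∀ k ∈ t, ∑ e, gradL v k e ^ 2 ≤ M) :
    ∃ ψ : (Edge n → ℝ) → ℝ, Tame ψ ∧ (∀ g, ψ g ≤ Real.log (zbar v g) + 1) ∧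
      (∀ g, ∀ k ∈ t, Real.log (zbar v k) + ∑ e, gradL v k e * (g e - k e) ≤ ψ g) ∧
      ∫ g, (ψ g - ∫ g', ψ g' ∂gauss (Edge n)) ^ 2 ∂gauss (Edge n) ≤ M := by
  have : Nonempty t := ht.to_subtype
  set β : ℝ := Real.log (Fintype.card t) + 1 with hβd
  have hlog : 0 ≤ Real.log (Fintype.card t) :=
    Real.log_nonneg (by exact_mod_cast Fintype.card_pos (α := t))
  have hβ : 0 < β := by linarith
  set c : t → ℝ := fun k => Real.log (zbar v k.1) - ∑ e, gradL v k.1 e * k.1 e with hcd
  set w : t → Edge n → ℝ := fun k => gradL v k.1 with hwd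
  have ea : ∀ (k : t) (g : Edge n → ℝ), c k + ∑ e, w k e * g e =
      Real.log (zbar v k.1) + ∑ e, gradL v k.1 e * (g e - k.1 e) := fun k g => by
    simp only [hcd, hwd, mul_sub, sum_sub_distrib]
    ring
  refine ⟨softmax β c w, tame_softmax hβ c w, fun g => ?_, fun g k hk => ?_,
    softmax_variance hβ c w fun k => hM k.1 k.2⟩
  · simp only [softmax, lse, ea]
    rw [div_le_iff₀ hβ]
    have h : ∑ k : t, Real.exp (β * (Real.log (zbar v k.1) +
        ∑ e, gradL v k.1 e * (g e - k.1 e))) ≤
        Fintype.card t * Real.exp (β * Real.log (zbar v g)) :=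
      (sum_le_sum fun k _ => Real.exp_le_exp.2
        (mul_le_mul_of_nonneg_left (tangent v g k.1) hβ.le)).trans_eq (by simp)
    have h2 := Real.log_le_log (sum_exp_pos _) h
    rw [Real.log_mul (by exact_mod_cast Fintype.card_pos.ne') (Real.exp_pos _).ne',
      Real.log_exp] at h2
    linarith
  · simp only [softmax, lse]
    rw [le_div_iff₀ hβ, mul_comm, ← Real.log_exp (β * _), ← ea (⟨k, hk⟩ : t) g]
    exact Real.log_le_log (Real.exp_pos _)
      (single_le_sum (f := fun j : t => Real.exp (β * (c j + ∑ e, w j e * g e)))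
        (fun _ _ => (Real.exp_pos _).le) (mem_univ (⟨k, hk⟩ : t)))

lemma markov_real {α : Type*} [MeasurableSpace α] {μ : Measure α} {f : α → ℝ} (hf : ∀ a, 0 ≤ f a)
    (hi : Integrable f μ) {c : ℝ} (hc : 0 < c) {S : Set α} [IsFiniteMeasure μ]
    (hS : ∀ a ∈ S, c ≤ f a) : μ.real S ≤ (∫ a, f a ∂μ) / c := by
  rw [le_div_iff₀ hc]
  calc μ.real S * c ≤ μ.real {a | c ≤ f a} * c :=
        mul_le_mul_of_nonneg_right (measureReal_mono hS) hc.le
    _ ≤ ∫ a, f a ∂μ := by
        rw [mul_comm]
        exact mul_meas_ge_le_integral_of_nonneg (ae_of_all _ hf) hi c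

lemma continuous_zbar (v : ℝ) : Continuous (zbar (n := n) v) := by
  have : ∀ x : Conf n, Continuous (lik v x) := continuous_lik v
  unfold zbar
  fun_prop

lemma continuous_gradW (v : ℝ) : Continuous (gradW (n := n) v) := by
  have : ∀ x : Conf n, Continuous (lik v x) := continuous_lik v
  unfold gradW
  fun_prop

lemma integrable_zbar (v : ℝ) : Integrable (zbar (n := n) v) (gauss (Edge n)) :=
  (integrable_finsetSum _ fun x _ => integrable_lik v x).div_const _

/-- By Paley and Zygmund `zbar` is at least `1/2` with positive probability. -/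
lemma mass_half (v C : ℝ) (hC : 1 ≤ C)
    (hi : Integrable (fun g => zbar (n := n) v g ^ 2) (gauss (Edge n)))
    (he : ∫ g, zbar (n := n) v g ^ 2 ∂gauss (Edge n) ≤ C) :
    1 / (4 * C) ≤ (gauss (Edge n)).real {g | 1 / 2 ≤ zbar (n := n) v g} := by
  set S : Set (Edge n → ℝ) := {g | 1 / 2 ≤ zbar v g} with hSd
  have hm : MeasurableSet S := (isClosed_le continuous_const (continuous_zbar v)).measurableSet
  set ind : (Edge n → ℝ) → ℝ := S.indicator fun _ => (1:ℝ) with hind
  have hii : Integrable ind (gauss (Edge n)) := (integrable_const (1:ℝ)).indicator hm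
  have hpt : ∀ g, zbar v g ≤ 1 / 2 + (zbar v g ^ 2 / (4 * C) + C * ind g) := by
    intro g
    by_cases h : g ∈ S
    · rw [show ind g = 1 from Set.indicator_of_mem h _, mul_one]
      have h2 : zbar v g ^ 2 / (4 * C) + C - zbar v g = (zbar v g - 2 * C) ^ 2 / (4 * C) := by
        field_simp
        ring
      have h3 : 0 ≤ (zbar v g - 2 * C) ^ 2 / (4 * C) := by positivity
      linarith
    · rw [show ind g = 0 from Set.indicator_of_notMem h _]
      have : 0 ≤ zbar v g ^ 2 / (4 * C) := by positivity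
      have h' : zbar v g < 1 / 2 := not_le.1 h
      linarith
  have hR : Integrable (fun g => zbar v g ^ 2 / (4 * C) + C * ind g) (gauss (Edge n)) :=
    (hi.div_const _).add (hii.const_mul C)
  have h := integral_mono (integrable_zbar v) ((integrable_const (1 / 2)).add hR) hpt
  rw [integral_zbar, integral_add' (integrable_const _) hR, integral_const, probReal_univ,
    one_smul, integral_add (hi.div_const _) (hii.const_mul C), integral_const_mul,
    integral_div] at h
  have hmeas : ∫ g, ind g ∂gauss (Edge n) = (gauss (Edge n)).real S := by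
    rw [hind, integral_indicator hm, setIntegral_const, smul_eq_mul, mul_one]
  rw [hmeas] at h
  have h4 : (∫ g, zbar v g ^ 2 ∂gauss (Edge n)) / (4 * C) ≤ 1 / 4 := by
    rw [div_le_iff₀ (by positivity)]
    linarith
  rw [div_le_iff₀ (by positivity)]
  linarith

/-- A compact set where `zbar` is large and its gradient small. -/
lemma mass_compact (v C C' M : ℝ) (hv : 0 ≤ v) (hC : 1 ≤ C) (hMC : 32 * C * C' ≤ M) (hM : 0 < M)
    (hi : Integrable (fun g => zbar (n := n) v g ^ 2) (gauss (Edge n)))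
    (he : ∫ g, zbar (n := n) v g ^ 2 ∂gauss (Edge n) ≤ C)
    (hig : Integrable (fun g => gradW (n := n) v g) (gauss (Edge n)))
    (heg : ∫ g, gradW (n := n) v g ∂gauss (Edge n) ≤ C') :
    ∃ K : Set (Edge n → ℝ), IsCompact K ∧ 1 / (16 * C) < (gauss (Edge n)).real K ∧
      ∀ g ∈ K, 1 / 2 ≤ zbar v g ∧ gradW v g ≤ M / 4 := by
  set μ := gauss (Edge n) with hμ
  set G : Set (Edge n → ℝ) := {g | 1 / 2 ≤ zbar v g ∧ gradW v g ≤ M / 4} with hGd
  have hA := mass_half v C hC hi he
  have hG : 1 / (8 * C) ≤ μ.real G := by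
    have h1 : μ.real {g | 1 / 2 ≤ zbar v g} ≤ μ.real G + μ.real {g | M / 4 < gradW v g} := by
      refine (measureReal_mono fun g hg => ?_).trans (measureReal_union_le _ _)
      by_cases h : gradW v g ≤ M / 4
      · exact Or.inl ⟨hg, h⟩
      · exact Or.inr (not_le.1 h)
    have h2 : μ.real {g | M / 4 < gradW v g} ≤ 1 / (8 * C) := by
      refine (markov_real (f := gradW v)
        (fun g => mul_nonneg hv (sum_nonneg fun _ _ => sq_nonneg _))
        hig (c := M / 4) (by positivity) fun g hg => le_of_lt hg).trans ?_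
      rw [div_le_div_iff₀ (by positivity) (by positivity)]
      nlinarith [mul_le_mul_of_nonneg_right heg (show (0:ℝ) ≤ 8 * C by linarith)]
    have h3 : 1 / (4 * C) = 1 / (8 * C) + 1 / (8 * C) := by field_simp; ring
    linarith
  have hGc : IsClosed G :=
    (isClosed_le continuous_const (continuous_zbar v)).inter
      (isClosed_le (continuous_gradW v) continuous_const)
  obtain ⟨k, hk⟩ : ∃ k : ℕ, 1 / (16 * C) < μ.real (G ∩ Metric.closedBall 0 k) := by
    have hmono : Monotone fun k : ℕ => G ∩ Metric.closedBall (0 : Edge n → ℝ) k := fun i j hij =>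
      Set.inter_subset_inter_right _ (Metric.closedBall_subset_closedBall (Nat.cast_le.2 hij))
    have hU : ⋃ k : ℕ, G ∩ Metric.closedBall (0 : Edge n → ℝ) k = G := by
      rw [← Set.inter_iUnion]
      refine Set.inter_eq_left.2 fun g _ => ?_
      obtain ⟨k, hk⟩ := exists_nat_ge (dist g 0)
      exact Set.mem_iUnion.2 ⟨k, hk⟩
    have hlim : Tendsto (fun k : ℕ => μ (G ∩ Metric.closedBall 0 k)) atTop (𝓝 (μ G)) := by
      have := tendsto_measure_iUnion_atTop (μ := μ) hmono
      rwa [hU] at this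
    have hlim' : Tendsto (fun k : ℕ => μ.real (G ∩ Metric.closedBall 0 k)) atTop (𝓝 (μ.real G)) :=
      (ENNReal.tendsto_toReal (measure_ne_top μ G)).comp hlim
    have hlt : 1 / (16 * C) < 1 / (8 * C) :=
      one_div_lt_one_div_of_lt (by positivity) (by linarith)
    exact ((tendsto_order.1 hlim').1 _ (lt_of_lt_of_le hlt hG)).exists
  exact ⟨_, (isCompact_closedBall (0 : Edge n → ℝ) k).inter_left hGc, hk, fun g hg => hg.1⟩

/-- A tail bound from a compact set of positive mass with bounded log-gradient. -/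
lemma tail_of_mass (v M r : ℝ) (hv : 0 ≤ v) (hM : 0 < M) (hr : 0 < r) {K : Set (Edge n → ℝ)}
    (hKc : IsCompact K) (hK : r < (gauss (Edge n)).real K)
    (hKg : ∀ g ∈ K, 1 / 2 ≤ zbar v g ∧ gradW v g ≤ M / 4) {δ : ℝ} (hδ : 0 < δ) :
    (gauss (Edge n)).real {g | zbar v g <
        Real.exp (-(3 + Real.log 2 + (M + 1) / 2 + M / r + M / δ))} ≤ δ := by
  set μ := gauss (Edge n) with hμ
  set N : ℝ := (Fintype.card (Edge n) : ℝ) + 1 with hN
  have hN1 : 1 ≤ N := by
    have : (0:ℝ) ≤ (Fintype.card (Edge n) : ℝ) := Nat.cast_nonneg _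
    linarith
  obtain ⟨t, htK, htfin, hcover⟩ := hKc.finite_cover_balls (e := 1 / N) (by positivity)
  have hne : K.Nonempty := by
    rw [Set.nonempty_iff_ne_empty]
    intro h0
    rw [h0, measureReal_empty] at hK
    linarith
  obtain ⟨g₀, hg₀⟩ := hne
  have htne : htfin.toFinset.Nonempty := by
    obtain ⟨y, hy, -⟩ := Set.mem_iUnion₂.1 (hcover hg₀)
    exact ⟨y, htfin.mem_toFinset.2 hy⟩
  have hgrad : ∀ y ∈ K, ∑ e, gradL v y e ^ 2 ≤ M := fun y hy => by
    rw [gradL_sq v hv, div_le_iff₀ (pow_pos (zbar_pos v y) 2)]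
    have : (1 / 2) ^ 2 ≤ zbar v y ^ 2 := pow_le_pow_left₀ (by norm_num) (hKg y hy).1 2
    nlinarith [(hKg y hy).2, mul_le_mul_of_nonneg_left this hM.le]
  obtain ⟨ψ, hψt, hψu, hψl, hψv⟩ := exists_minorant v M htfin.toFinset htne
    fun y hy => hgrad y (htK (htfin.mem_toFinset.1 hy))
  set A := ∫ g', ψ g' ∂μ with hA
  set c₁ := -Real.log 2 - (M + 1) / 2 with hc₁
  have hlow : ∀ g ∈ K, c₁ ≤ ψ g := by
    intro g hg
    obtain ⟨y, hy, hdist⟩ := Set.mem_iUnion₂.1 (hcover hg)
    refine le_trans ?_ (hψl g y (htfin.mem_toFinset.2 hy))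
    have h1 : -Real.log 2 ≤ Real.log (zbar v y) := by
      rw [← Real.log_inv]
      exact Real.log_le_log (by norm_num) (by simpa using (hKg y (htK hy)).1)
    have h2 : ∑ e, (g e - y e) ^ 2 ≤ 1 := by
      calc ∑ e, (g e - y e) ^ 2 ≤ ∑ _e : Edge n, (1 / N) ^ 2 := sum_le_sum fun e _ => by
            rw [← sq_abs]
            refine pow_le_pow_left₀ (abs_nonneg _) ?_ 2
            rw [← Real.dist_eq]
            exact (dist_le_pi_dist g y e).trans (le_of_lt hdist)
        _ ≤ 1 := by
            rw [sum_const, card_univ, nsmul_eq_mul, div_pow, one_pow, mul_one_div,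
              div_le_one (by positivity)]
            nlinarith
    have h3 : -(M + 1) / 2 ≤ ∑ e, gradL v y e * (g e - y e) := by
      have h := sum_le_sum (s := univ) fun e (_ : e ∈ univ) =>
        (show -((gradL v y e ^ 2 + (g e - y e) ^ 2) / 2) ≤ gradL v y e * (g e - y e) by
          nlinarith [sq_nonneg (gradL v y e + (g e - y e))])
      rw [sum_neg_distrib, ← sum_div, sum_add_distrib] at h
      linarith [hgrad y (htK hy)]
    linarith
  have hsq : Integrable (fun g => (ψ g - A) ^ 2) μ :=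
    ((hψt.sub (Tame.const A)).pow 2).integrable
  have hMr : 0 < M / r := div_pos hM hr
  have hAge : c₁ - 1 - M / r ≤ A := by
    by_contra hlt
    rw [not_le] at hlt
    have hgap : 1 + M / r < c₁ - A := by linarith
    have hpos : 0 < (c₁ - A) ^ 2 := pow_pos (by linarith) 2
    have hm := markov_real (μ := μ) (S := K) (f := fun g => (ψ g - A) ^ 2)
      (fun g => sq_nonneg _) hsq hpos fun g hg =>
        pow_le_pow_left₀ (by linarith) (by linarith [hlow g hg]) 2
    have h5 : r * (c₁ - A) ^ 2 ≤ M := by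
      rw [← le_div_iff₀ hpos]
      exact hK.le.trans (hm.trans (div_le_div_of_nonneg_right hψv hpos.le))
    have h6 : r * (M / r) = M := mul_div_cancel₀ _ hr.ne'
    nlinarith [mul_lt_mul_of_pos_left hgap hr]
  set lam := 3 + Real.log 2 + (M + 1) / 2 + M / r + M / δ with hlam
  have hd : 0 < M / δ := div_pos hM hδ
  have hsub : {g | zbar v g < Real.exp (-lam)} ⊆ {g : Edge n → ℝ | ψ g ≤ 1 - lam} := fun g hg => by
    have := (Real.log_lt_iff_lt_exp (zbar_pos v g)).2 hg
    have := hψu g
    simp only [Set.mem_ofPred_eq]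
    linarith
  have hgap : 1 + M / δ ≤ A - (1 - lam) := by linarith
  have hpos2 : 0 < (1 + M / δ) ^ 2 := pow_pos (by linarith) 2
  calc μ.real {g | zbar v g < Real.exp (-lam)} ≤ μ.real {g : Edge n → ℝ | ψ g ≤ 1 - lam} :=
        measureReal_mono hsub
    _ ≤ M / (1 + M / δ) ^ 2 := by
        refine (markov_real (f := fun g => (ψ g - A) ^ 2) (fun g => sq_nonneg _)
          hsq hpos2 fun g hg => ?_).trans (div_le_div_of_nonneg_right hψv hpos2.le)
        simp only [Set.mem_ofPred_eq] at hg
        rw [← sq_abs (ψ g - A)]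
        refine pow_le_pow_left₀ (by linarith) ?_ 2
        linarith [neg_abs_le (ψ g - A)]
    _ ≤ δ := by
        rw [div_le_iff₀ hpos2]
        have : δ * (M / δ) = M := mul_div_cancel₀ _ hδ.ne'
        nlinarith

/-- **The lower tail of the null partition function.** -/
theorem zbar_lower_tail {b : ℝ} (hb : b ^ 2 < 1) {δ : ℝ} (hδ : 0 < δ) :
    ∃ θ : ℝ, 0 < θ ∧ ∀ n : ℕ, 0 < n →
      (gauss (Edge n)).real {g | zbar (n := n) (b ^ 2 / n) g < θ} ≤ δ := by
  set c := (1 + b ^ 2) / 2 with hcd
  have hc : c < 1 := by linarith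
  have hbc : b ^ 2 < c := by linarith
  set C := cBound c + 1 with hCd
  have hC : 1 ≤ C := by linarith [cBound_nonneg c]
  set C' := cBound c / (c - b ^ 2) with hC'd
  have hC'0 : 0 ≤ C' := div_nonneg (cBound_nonneg c) (by linarith)
  set M := 32 * C * (C' + 1) with hMd
  have hM : 0 < M := by positivity
  have hMC : 32 * C * C' ≤ M := by rw [hMd]; nlinarith
  refine ⟨Real.exp (-(3 + Real.log 2 + (M + 1) / 2 + M / (1 / (16 * C)) + M / δ)),
    Real.exp_pos _, fun n hn => ?_⟩
  obtain ⟨hi2, he2⟩ := integral_zbar_sq_le (b := b) hbc.le hc hn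
  obtain ⟨hig, heg⟩ := integral_gradW_le (b := b) hbc hc hn
  have hv : (0:ℝ) ≤ b ^ 2 / n := by positivity
  obtain ⟨K, hKc, hK, hKg⟩ :=
    mass_compact (b ^ 2 / n) C C' M hv hC hMC hM hi2 (he2.trans (by linarith)) hig heg
  exact tail_of_mass (b ^ 2 / n) M _ hv hM (by positivity) hKc hK hKg hδ

end Vale.Agent.P150.Weak.Local
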