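import Vale.Agent.P150.Weak.Local.Contig
import Vale.Agent.P150.Weak.GaussPoinc
import Vale.Agent.P150.Lower.Flip

/-!
Localisation: the covariance bound along the planted channel and a gap at the endpoint give the
weak Poincaré inequality.
-/

open MeasureTheory ProbabilityTheory Finset Filter
open scoped Topology Interval

namespace Vale.Agent.P150.Weak.Local

open Gap

variable {n : ℕ}

/-- The covariance norm beyond `K`. -/
noncomputable def exc (K : ℝ) (J : Mat n) (u : Vec n) : ℝ := max (op (cm2 J u) - K) 0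

lemma exc_nonneg (K : ℝ) (J : Mat n) (u : Vec n) : 0 ≤ exc K J u := le_max_right _ _

lemma exc_le_op {K : ℝ} (hK : 0 ≤ K) (J : Mat n) (u : Vec n) : exc K J u ≤ op (cm2 J u) :=
  max_le (by linarith) (op_nonneg _)

lemma continuous_exc (K : ℝ) : Continuous fun q : Mat n × Vec n => exc K q.1 q.2 :=
  (continuous_op_cm2.sub continuous_const).max continuous_const

lemma exc_gauge (K : ℝ) (x : Conf n) (J : Mat n) (u : Vec n) :
    exc K (gmat x J) u = exc K J (gvec x u) := by
  have h := op_cm2_gauge x J (gvec x u)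
  rw [gvec_gvec] at h
  rw [exc, exc, h]

lemma gauss_gvec (x : Conf n) : MeasurePreserving (gvec x) (gauss (Fin n)) (gauss (Fin n)) := by
  refine measurePreserving_pi _ _ fun i => ⟨measurable_const_mul _, ?_⟩
  rw [gaussianReal_map_const_mul, mul_zero]
  congr 1
  ext
  simp [sq, Gap.spin_sq]

/-- The all-plus configuration. -/
def ones (n : ℕ) : Conf n := fun _ => true

/-- The channel excess for the planted configuration. -/
noncomputable def excOne (K : ℝ) (J : Mat n) (s : ℝ) : ℝ :=
  ∫ z, exc K J (chan s (ones n) z) ∂gauss (Fin n)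

/-- The averaged channel excess. -/
noncomputable def excAvg (K : ℝ) (J : Mat n) (s : ℝ) : ℝ :=
  ∑ y, mu J 0 y * excOne K (gmat y J) s

/-- The accumulated excess up to time `S²`. -/
noncomputable def excInt (K S : ℝ) (J : Mat n) : ℝ :=
  ∫ s in (0:ℝ)..S, 2 * s * excAvg K J s

lemma continuous_gmat (y : Conf n) : Continuous (gmat y : Mat n → Mat n) :=
  continuous_pi fun i => continuous_pi fun j => by unfold gmat; fun_prop

lemma continuous_excOne {K : ℝ} (hK : 0 ≤ K) :
    Continuous fun p : Mat n × ℝ => excOne K p.1 p.2 := by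
  obtain ⟨R, hR⟩ := exists_op_cm2_le n
  refine continuous_of_dominated (bound := fun _ => R) (fun p => ?_) (fun p => ?_)
    (integrable_const _) (ae_of_all _ fun z => ?_)
  · exact ((continuous_exc K).comp (f := fun z : Fin n → ℝ => (p.1, chan p.2 (ones n) z))
      (continuous_const.prodMk (continuous_chan p.2 _))).aestronglyMeasurable
  · refine ae_of_all _ fun z => ?_
    rw [Real.norm_eq_abs, abs_of_nonneg (exc_nonneg _ _ _)]
    exact (exc_le_op hK _ _).trans (hR _ _)
  · exact (continuous_exc K).comp (f := fun p : Mat n × ℝ => (p.1, chan p.2 (ones n) z))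
      (continuous_fst.prodMk (continuous_pi fun a => by unfold chan; fun_prop))

lemma continuous_excAvg {K : ℝ} (hK : 0 ≤ K) :
    Continuous fun p : Mat n × ℝ => excAvg K p.1 p.2 := by
  refine continuous_finsetSum _ fun y _ => Continuous.mul ?_ ?_
  · simp only [mu, wt, expo]
    exact Continuous.div₀ (by fun_prop) (by fun_prop) fun p =>
      (sum_pos (fun z _ => Real.exp_pos _) univ_nonempty).ne'
  · exact (continuous_excOne hK).comp (f := fun p : Mat n × ℝ => (gmat y p.1, p.2))
      (((continuous_gmat y).comp continuous_fst).prodMk continuous_snd)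

lemma excOne_nonneg (K : ℝ) (J : Mat n) (s : ℝ) : 0 ≤ excOne K J s :=
  integral_nonneg fun _ => exc_nonneg _ _ _

lemma excOne_le {K R : ℝ} (hK : 0 ≤ K) (hR : ∀ (J : Mat n) u, op (cm2 J u) ≤ R) (J : Mat n)
    (s : ℝ) : excOne K J s ≤ R := by
  have hc : Continuous fun z => exc K J (chan s (ones n) z) :=
    (continuous_exc K).comp (f := fun z : Fin n → ℝ => (J, chan s (ones n) z))
      (continuous_const.prodMk (continuous_chan s _))
  refine (integral_mono (integrable_gauss_bound hc (B := R) fun z => ?_) (integrable_const R)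
    fun z => (exc_le_op hK _ _).trans (hR _ _)).trans_eq (by simp)
  rw [abs_of_nonneg (exc_nonneg _ _ _)]
  exact (exc_le_op hK _ _).trans (hR _ _)

lemma excAvg_nonneg (K : ℝ) (J : Mat n) (s : ℝ) : 0 ≤ excAvg K J s :=
  sum_nonneg fun y _ => mul_nonneg (mu_pos _ _ y).le (excOne_nonneg _ _ _)

lemma excAvg_le {K R : ℝ} (hK : 0 ≤ K) (hR : ∀ (J : Mat n) u, op (cm2 J u) ≤ R) (J : Mat n)
    (s : ℝ) : excAvg K J s ≤ R :=
  (sum_le_sum fun y _ => mul_le_mul_of_nonneg_left (excOne_le hK hR _ _) (mu_pos J 0 y).le).trans_eq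
    (by rw [← sum_mul, sum_mu, one_mul])

lemma excAvg_eq (K : ℝ) (J : Mat n) (s : ℝ) :
    excAvg K J s = chanAvg J s fun u => exc K J u := by
  refine sum_congr rfl fun y _ => congrArg (mu J 0 y * ·) ?_
  have hc : Continuous fun z => exc K J (chan s y z) :=
    (continuous_exc K).comp (f := fun z : Fin n → ℝ => (J, chan s y z))
      (continuous_const.prodMk (continuous_chan s _))
  rw [← integral_comp_mp (gauss_gvec y) hc.aestronglyMeasurable, excOne]
  refine integral_congr_ae (ae_of_all _ fun z => ?_)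
  simp only [exc_gauge]
  congr 1
  funext a
  simp only [gvec, chan, ones, spin, if_true]
  ring

lemma excAvg_gauge (K : ℝ) (x : Conf n) (J : Mat n) (s : ℝ) :
    excAvg K (gmat x J) s = excAvg K J s := by
  have hg : ∀ y, gmat y (gmat x J) = gmat (cmul x y) J := fun y => by
    funext i j
    simp only [gmat, spin_cmul]
    ring
  have hm : ∀ y, mu (gmat x J) 0 y = mu J 0 (cmul x y) := fun y => by
    have h := mu_gauge x J 0 y
    rwa [gvec_zero] at h
  simp only [excAvg, hm, hg]
  exact sum_cmul x fun y => mu J 0 y * excOne K (gmat y J) s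

lemma excInt_gauge (K S : ℝ) (x : Conf n) (J : Mat n) :
    excInt K S (gmat x J) = excInt K S J := by simp only [excInt, excAvg_gauge]

lemma continuous_excInt {K : ℝ} (hK : 0 ≤ K) (S : ℝ) :
    Continuous fun J : Mat n => excInt K S J :=
  intervalIntegral.continuous_parametric_intervalIntegral_of_continuous'
    (f := fun J s => 2 * s * excAvg K J s)
    ((continuous_const.mul continuous_snd).mul (continuous_excAvg hK)) 0 S

/-- The planted couplings from the edge variables. -/
noncomputable def plE (b : ℝ) (g : Edge n → ℝ) : Mat n :=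
  nullJ (b ^ 2 / n) fun e => √(b ^ 2 / n) + g e

lemma continuous_plE (b : ℝ) : Continuous (plE (n := n) b) :=
  (continuous_nullJ _).comp (by fun_prop)

/-- By the Nishimori identity the excess along the channel is the excess of the planted family. -/
lemma integral_excAvg (b : ℝ) {K s : ℝ} (hK : 0 ≤ K) (hs : 0 ≤ s) :
    ∫ g, excAvg K (plE (n := n) b g) s ∂gauss (Edge n) = pEv b n n (s ^ 2) (exc K) := by
  obtain ⟨R, hR⟩ := exists_op_cm2_le n
  have hc : Continuous fun J : Mat n => excOne K J s :=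
    (continuous_excOne hK).comp (f := fun J : Mat n => (J, s))
      (continuous_id.prodMk continuous_const)
  have h1 := nishimori (b ^ 2 / n) hc (B := R) fun J => by
    rw [abs_of_nonneg (excOne_nonneg _ _ _)]
    exact excOne_le hK hR J s
  simp only [excAvg, plE]
  refine h1.trans ?_
  have hv : (0:ℝ) ≤ b ^ 2 / n := by positivity
  set F : (Edge n → ℝ) × (Fin n → ℝ) → ℝ := fun q => exc K (plE b q.1) (chan s (ones n) q.2)
  have hF : Continuous F :=
    (continuous_exc K).comp
      (f := fun q : (Edge n → ℝ) × (Fin n → ℝ) => (plE b q.1, chan s (ones n) q.2))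
      (((continuous_plE b).comp continuous_fst).prodMk
        ((continuous_chan s _).comp continuous_snd))
  have hFi : Integrable F ((gauss (Edge n)).prod (gauss (Fin n))) := by
    refine (integrable_const R).mono' hF.aestronglyMeasurable (ae_of_all _ fun q => ?_)
    rw [Real.norm_eq_abs, abs_of_nonneg (exc_nonneg _ _ _)]
    exact (exc_le_op hK _ _).trans (hR _ _)
  refine (integral_prod F hFi).symm.trans ?_
  have hmp : MeasurePreserving (MeasurableEquiv.sumPiEquivProdPi fun _ : Idx n => ℝ)
      (gauss (Idx n)) ((gauss (Edge n)).prod (gauss (Fin n))) :=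
    measurePreserving_sumPiEquivProdPi fun _ : Idx n => gaussianReal 0 1
  rw [pEv, ← integral_comp_mp hmp hF.aestronglyMeasurable]
  refine integral_congr_ae (ae_of_all _ fun g => ?_)
  show F (fun e => g (.inl e), fun a => g (.inr a)) = _
  simp only [F, plE, plJ_eq hv]
  congr 1
  funext a
  simp [chan, ones, spin, plU, Real.sqrt_sq hs]

/-- The accumulated planted excess vanishes. -/
lemma tendsto_integral_excInt {b K S C : ℝ} {N : ℕ} (hK : 0 ≤ K) (hS : 0 ≤ S)
    (hC : ∀ n : ℕ, ∀ τ : ℝ, N ≤ n → 0 ≤ τ → τ ≤ S ^ 2 → pEv b n n τ (exc K) ≤ C)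
    (hlim : ∀ τ : ℝ, 0 < τ → τ ≤ S ^ 2 →
      Tendsto (fun n : ℕ => pEv b n n τ (exc K)) atTop (𝓝 0)) :
    Tendsto (fun n : ℕ => ∫ g, excInt K S (plE (n := n) b g) ∂gauss (Edge n)) atTop (𝓝 0) := by
  set F : ℕ → ℝ → ℝ := fun n s => ∫ g, 2 * s * excAvg K (plE (n := n) b g) s ∂gauss (Edge n)
  have hjc : ∀ n : ℕ, Continuous (Function.uncurry fun (s : ℝ) (g : Edge n → ℝ) =>
      2 * s * excAvg K (plE b g) s) := fun n =>
    (continuous_const.mul continuous_fst).mul ((continuous_excAvg hK).comp
      (f := fun q : ℝ × (Edge n → ℝ) => (plE b q.2, q.1))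
      (((continuous_plE b).comp continuous_snd).prodMk continuous_fst))
  have hprod : ∀ n : ℕ, Integrable (Function.uncurry fun (s : ℝ) (g : Edge n → ℝ) =>
      2 * s * excAvg K (plE b g) s) ((volume.restrict (Ι 0 S)).prod (gauss (Edge n))) := by
    intro n
    obtain ⟨R, hR⟩ := exists_op_cm2_le n
    have : IsFiniteMeasure (volume.restrict (Ι (0:ℝ) S)) :=
      ⟨by rw [Measure.restrict_apply_univ, Set.uIoc]; exact measure_Ioc_lt_top⟩
    refine (integrable_const (2 * S * R)).mono' (hjc n).aestronglyMeasurable ?_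
    have hae : ∀ᵐ q ∂(volume.restrict (Ι (0:ℝ) S)).prod (gauss (Edge n)), q.1 ∈ Ι 0 S :=
      (Measure.quasiMeasurePreserving_fst (μ := volume.restrict (Ι (0:ℝ) S))
        (ν := gauss (Edge n))).ae (ae_restrict_mem measurableSet_uIoc)
    filter_upwards [hae] with q hq
    rw [Set.uIoc_of_le hS] at hq
    rw [Function.uncurry, Real.norm_eq_abs, abs_mul, abs_of_nonneg (excAvg_nonneg _ _ _),
      abs_of_nonneg (by linarith [hq.1])]
    exact mul_le_mul (by linarith [hq.2]) (excAvg_le hK hR _ _) (excAvg_nonneg _ _ _)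
      (by linarith)
  have hswap : ∀ n : ℕ, ∫ g, excInt K S (plE (n := n) b g) ∂gauss (Edge n) =
      ∫ s in (0:ℝ)..S, F n s := fun n => (intervalIntegral_integral_swap (hprod n)).symm
  have hFeq : ∀ n s, 0 ≤ s → F n s = 2 * s * pEv b n n (s ^ 2) (exc K) := fun n s hs => by
    simp only [F, integral_const_mul, integral_excAvg b hK hs]
  simp only [hswap]
  suffices h : Tendsto (fun n => ∫ s in (0:ℝ)..S, F n s) atTop (𝓝 (∫ _ in (0:ℝ)..S, (0:ℝ))) by
    simpa using h
  refine intervalIntegral.tendsto_integral_filter_of_dominated_convergence (l := atTop) (F := F)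
    (f := fun _ => 0) (fun _ => 2 * S * C)
    (Eventually.of_forall fun n => ?_) ?_ (intervalIntegrable_const (μ := volume)) (ae_of_all _ fun s hs => ?_)
  · exact (hprod n).aestronglyMeasurable.integral_prod_right'
  · filter_upwards [eventually_ge_atTop N] with n hn
    refine ae_of_all _ fun s hs => ?_
    rw [Set.uIoc_of_le hS] at hs
    have h0 : 0 ≤ pEv b n n (s ^ 2) (exc K) := integral_nonneg fun _ => exc_nonneg _ _ _
    rw [hFeq n s hs.1.le, Real.norm_eq_abs, abs_mul, abs_of_nonneg h0,
      abs_of_nonneg (by linarith [hs.1])]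
    exact mul_le_mul (by linarith [hs.2])
      (hC n _ hn (sq_nonneg s) (pow_le_pow_left₀ hs.1.le hs.2 2)) h0 (by linarith)
  · rw [Set.uIoc_of_le hS] at hs
    simp only [hFeq _ s hs.1.le]
    simpa using (hlim (s ^ 2) (pow_pos hs.1 2) (pow_le_pow_left₀ hs.1.le hs.2 2)).const_mul (2 * s)

/-- Planted excess is unlikely. -/
lemma tendsto_pPr_excInt {b K S C δ : ℝ} {N : ℕ} (hK : 0 ≤ K) (hS : 0 ≤ S) (hδ : 0 < δ)
    (hC : ∀ n : ℕ, ∀ τ : ℝ, N ≤ n → 0 ≤ τ → τ ≤ S ^ 2 → pEv b n n τ (exc K) ≤ C)
    (hlim : ∀ τ : ℝ, 0 < τ → τ ≤ S ^ 2 →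
      Tendsto (fun n : ℕ => pEv b n n τ (exc K)) atTop (𝓝 0)) :
    Tendsto (fun n : ℕ => pPr b n n 0 fun J _ => J ∈ {J : Mat n | δ ≤ excInt K S J})
      atTop (𝓝 0) := by
  refine squeeze_zero (fun n => measureReal_nonneg) (fun n => ?_)
    (by simpa using (tendsto_integral_excInt hK hS hC hlim).div_const δ)
  obtain ⟨R, hR⟩ := exists_op_cm2_le n
  have hnn : ∀ J : Mat n, 0 ≤ excInt K S J := fun J =>
    intervalIntegral.integral_nonneg hS fun s hs =>
      mul_nonneg (by linarith [hs.1]) (excAvg_nonneg _ _ _)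
  have hle : ∀ J : Mat n, |excInt K S J| ≤ 2 * S * R * |S - 0| := fun J => by
    rw [← Real.norm_eq_abs]
    refine intervalIntegral.norm_integral_le_of_norm_le_const fun s hs => ?_
    rw [Set.uIoc_of_le hS] at hs
    rw [Real.norm_eq_abs, abs_mul, abs_of_nonneg (excAvg_nonneg _ _ _),
      abs_of_nonneg (by linarith [hs.1])]
    exact mul_le_mul (by linarith [hs.2]) (excAvg_le hK hR _ _) (excAvg_nonneg _ _ _)
      (by linarith)
  rw [pPr_couplings b n 0 (measurableSet_le measurable_const (continuous_excInt hK S).measurable)]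
  exact markov_real (f := fun g => excInt K S (plE b g)) (fun g => hnn _)
    (integrable_gauss_bound ((continuous_excInt hK S).comp (continuous_plE b)) fun g => hle _)
    hδ fun g hg => hg

lemma dir_nonneg {J : Mat n} (hJ : IsCoupling J) (u : Vec n) (f : Conf n → ℝ) :
    0 ≤ dir J u f := by
  rw [dir_eq_form hJ]
  exact sum_nonneg fun i _ => (ev_const J u 0).symm.le.trans (ev_mono J u fun x =>
    mul_nonneg (by linarith [mag_sq_lt J u i x]) (mul_self_nonneg _))

lemma integral_coord_sq (i : Fin n) : ∫ z : Fin n → ℝ, z i ^ 2 ∂gauss (Fin n) = 1 := by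
  have hev : MeasurePreserving (fun z : Fin n → ℝ => z i) (gauss (Fin n)) (gaussianReal 0 1) :=
    measurePreserving_eval _ i
  rw [integral_comp_mp (F := fun t : ℝ => t ^ 2) hev (by fun_prop),
    ← variance_of_integral_eq_zero aemeasurable_id' (by simp),
    variance_fun_id_gaussianReal]
  norm_num

/-- The endpoint gap holds for all fields the channel produces except with probability `O(1/n)`. -/
lemma chanAvg_var_endpoint {J : Mat n} (hJ : IsCoupling J) {η K S : ℝ} (hη : 0 < η) (hK : 0 ≤ K)
    (hS : 0 < S) (hSη : 16 / η ≤ S ^ 2) (hn : 0 < n)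
    (hend : ∀ u : Vec n, ((univ.filter fun i => |u i| < S ^ 2 / 2).card : ℝ) ≤ η * n →
      ∀ f : Conf n → ℝ, var J u f ≤ K * dir J u f)
    {f : Conf n → ℝ} (hf : ∀ x, |f x| ≤ 1) :
    (chanAvg J S fun u => var J u f) ≤ K * dir J 0 f + 4 / (9 * n) := by
  have hn' : (0:ℝ) < n := Nat.cast_pos.2 hn
  set Q : (Fin n → ℝ) → ℝ := fun z => ∑ i, (z i ^ 2 - 1)
  have hQt : Tame Q :=
    Tame.sum fun i _ => ((Tame.coord i).pow 2).sub (Tame.const 1)
  have hQ0 : ∫ z, Q z ∂gauss (Fin n) = 0 := by
    simp only [Q]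
    rw [integral_finsetSum _ fun i _ => (((Tame.coord i).pow 2).sub (Tame.const 1)).integrable]
    refine sum_eq_zero fun i _ => ?_
    rw [integral_sub ((Tame.coord i).pow 2).integrable (integrable_const _)]
    simp [integral_coord_sq i]
  have hQ2 : ∫ z, Q z ^ 2 ∂gauss (Fin n) ≤ 4 * n := by
    let : DecidableEq (Fin n) := fun a b => Classical.propDecidable (a = b)
    have hd : ∀ i g t, HasDerivAt (fun s => Q (Function.update g i s))
        (2 * Function.update g i t i) t := by
      intro i g t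
      have hu : ∀ j, HasDerivAt (fun s => Function.update g i s j ^ 2 - 1)
          (if j = i then 2 * t else 0) t := fun j => by
        rcases eq_or_ne j i with rfl | hne
        · simpa using ((hasDerivAt_id' t).fun_pow 2).sub_const 1
        · simpa [hne] using hasDerivAt_const t (g j ^ 2)
      refine (HasDerivAt.fun_sum (u := univ) fun j _ => hu j).congr_deriv ?_
      simp
    have h := poincare hQt.1 hQt.memLp_two (D := fun i g => 2 * g i) (fun i => by fun_prop) hd
      fun i => (((Tame.const 2).mul (Tame.coord i)).pow 2).integrable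
    refine h.trans (le_of_eq ?_)
    rw [hQ0, integral_finsetSum _ fun i _ => (((Tame.const 2).mul (Tame.coord i)).pow 2).integrable]
    have h : ∀ i : Fin n, ∫ z : Fin n → ℝ, (2 * z i) ^ 2 ∂gauss (Fin n) = 4 := fun i => by
      simp only [mul_pow, integral_const_mul, integral_coord_sq]
      norm_num
    simp only [h]
    simp [mul_comm]
  have hpt : ∀ x z, var J (chan S x z) f ≤
      K * dir J (chan S x z) f + Q z ^ 2 / (9 * (n:ℝ) ^ 2) := by
    intro x z
    set u := chan S x z with hu
    have hd := mul_nonneg hK (dir_nonneg hJ u f)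
    by_cases hgood : ((univ.filter fun i => |u i| < S ^ 2 / 2).card : ℝ) ≤ η * n
    · have : 0 ≤ Q z ^ 2 / (9 * (n:ℝ) ^ 2) := by positivity
      linarith [hend u hgood f]
    · rw [not_le] at hgood
      have hv := var_le_sq J u hf
      have hz : ∀ i ∈ univ.filter (fun i => |u i| < S ^ 2 / 2), 4 ≤ η * z i ^ 2 := by
        intro i hi
        have hlt := (mem_filter.1 hi).2
        have h1 : S ^ 2 ≤ |u i| + S * |z i| := by
          have e : S ^ 2 * spin x i = u i - S * z i := by simp only [hu, chan]; ring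
          have h2 : |S ^ 2 * spin x i| ≤ |u i| + |S * z i| := by rw [e]; exact abs_sub _ _
          rwa [abs_mul, abs_mul, abs_spin, mul_one, abs_of_pos hS,
            abs_of_nonneg (sq_nonneg S)] at h2
        have h3 : S / 2 < |z i| := lt_of_mul_lt_mul_left
          (show S * (S / 2) < S * |z i| by nlinarith) hS.le
        have h4 : S ^ 2 / 4 < z i ^ 2 := by
          rw [← sq_abs (z i)]
          nlinarith [abs_nonneg (z i)]
        rw [div_le_iff₀ hη] at hSη
        nlinarith
      have h5 : 4 * (n:ℝ) ≤ ∑ i, z i ^ 2 := by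
        have h6 : 4 * ((univ.filter fun i => |u i| < S ^ 2 / 2).card : ℝ) ≤
            η * ∑ i, z i ^ 2 := by
          calc 4 * ((univ.filter fun i => |u i| < S ^ 2 / 2).card : ℝ)
              = ∑ _i ∈ univ.filter (fun i => |u i| < S ^ 2 / 2), (4:ℝ) := by
                rw [sum_const, nsmul_eq_mul, mul_comm]
            _ ≤ ∑ i ∈ univ.filter (fun i => |u i| < S ^ 2 / 2), η * z i ^ 2 := sum_le_sum hz
            _ ≤ ∑ i, η * z i ^ 2 := sum_le_sum_of_subset_of_nonneg (filter_subset _ _)
                fun i _ _ => by positivity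
            _ = η * ∑ i, z i ^ 2 := by rw [mul_sum]
        exact le_of_mul_le_mul_left (by nlinarith) hη
      have h7 : 3 * (n:ℝ) ≤ Q z := by
        simp only [Q, sum_sub_distrib, sum_const, card_univ, Fintype.card_fin, nsmul_eq_mul,
          mul_one]
        linarith
      have h8 : 1 ≤ Q z ^ 2 / (9 * (n:ℝ) ^ 2) := by
        rw [le_div_iff₀ (by positivity)]
        nlinarith
      linarith
  have hdB : ∀ x, Integrable (fun z => dir J (chan S x z) f) (gauss (Fin n)) := by
    intro x
    obtain ⟨B, hB⟩ := exists_bound_cond J f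
    refine (tame_comp_chan (continuous_dir hJ f) (B := n * B) (fun u => ?_) S x).integrable
    rw [abs_of_nonneg (dir_nonneg hJ u f)]
    refine (dir_le_condErr hJ u f).trans
      ((sum_le_sum fun i _ => (le_abs_self _).trans (abs_ev_le J u (hB i))).trans_eq ?_)
    simp
  calc (chanAvg J S fun u => var J u f)
      ≤ ∑ x, mu J 0 x * (K * ∫ z, dir J (chan S x z) f ∂gauss (Fin n) + 4 / (9 * n)) := by
        refine sum_le_sum fun x _ => mul_le_mul_of_nonneg_left ?_ (mu_pos J 0 x).le
        have i1 : Integrable (fun z => var J (chan S x z) f) (gauss (Fin n)) :=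
          (tame_comp_chan (continuous_var J f) (B := 1 ^ 2) (fun u => by
            rw [abs_of_nonneg (var_nonneg J u f)]; exact var_le_sq J u hf) S x).integrable
        have i2 : Integrable (fun z => Q z ^ 2 / (9 * (n:ℝ) ^ 2)) (gauss (Fin n)) :=
          (hQt.pow 2).integrable.div_const _
        refine (integral_mono i1 (((hdB x).const_mul K).add i2) (hpt x)).trans ?_
        rw [integral_add' ((hdB x).const_mul K) i2, integral_const_mul, integral_div]
        refine add_le_add le_rfl ?_
        refine (div_le_div_of_nonneg_right hQ2 (by positivity)).trans_eq ?_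
        field_simp
    _ = K * (chanAvg J S fun u => dir J u f) + 4 / (9 * n) := by
        simp only [mul_add, sum_add_distrib, ← sum_mul, sum_mu, one_mul, chanAvg, mul_sum]
        congr 1
        exact sum_congr rfl fun x _ => mul_left_comm _ _ _
    _ ≤ K * dir J 0 f + 4 / (9 * n) :=
        add_le_add (mul_le_mul_of_nonneg_left (chanAvg_dir_le hJ S f) hK) le_rfl

/-- The deterministic conclusion on the good event. -/
lemma var_le_of_good {J : Mat n} (hJ : IsCoupling J) {η Ke KY S δ : ℝ} (hη : 0 < η) (hKe : 0 ≤ Ke)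
    (hKY : 0 ≤ KY) (hS : 0 < S) (hSη : 16 / η ≤ S ^ 2) (hn : 0 < n)
    (hend : ∀ u : Vec n, ((univ.filter fun i => |u i| < S ^ 2 / 2).card : ℝ) ≤ η * n →
      ∀ f : Conf n → ℝ, var J u f ≤ Ke * dir J u f)
    (herr : excInt KY S J < δ) {f : Conf n → ℝ} (hf : ∀ x, |f x| ≤ 1) :
    var J 0 f ≤ Real.exp (KY * S ^ 2) * Ke * dir J 0 f +
      Real.exp (KY * S ^ 2) * (4 / (9 * n) + δ) := by
  obtain ⟨R, hR⟩ := exists_op_cm2_le n
  have hYc : Continuous fun u => op (cm2 J u) :=
    continuous_op_cm2.comp (f := fun u : Vec n => (J, u)) (continuous_const.prodMk continuous_id)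
  have h := var_le_chanAvg J hYc (By := R)
    (fun u => by rw [abs_of_nonneg (op_nonneg _)]; exact hR J u) (var_lin_le J) hKY hS.le f hf
  have he : (∫ s in (0:ℝ)..S, 2 * s * chanAvg J s fun u => max (op (cm2 J u) - KY) 0) =
      excInt KY S J := by simp only [excInt, excAvg_eq, exc]
  rw [he] at h
  refine h.trans ?_
  calc Real.exp (KY * S ^ 2) * ((chanAvg J S fun u => var J u f) + 1 ^ 2 * excInt KY S J)
      ≤ Real.exp (KY * S ^ 2) * (Ke * dir J 0 f + 4 / (9 * n) + δ) := by
        refine mul_le_mul_of_nonneg_left (add_le_add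
          (chanAvg_var_endpoint hJ hη hKe hS hSη hn hend hf) ?_) (Real.exp_pos _).le
        linarith
    _ = _ := by ring

/-- **Localisation.** -/
theorem weakPoincareSpec (b : ℝ) (hY : YSpec b) (hE : EndpointSpec b) (hC : ContigSpec b) :
    WeakPoincareSpec b := by
  obtain ⟨η, Ke, T₀, hη, hKe, hend⟩ := hE
  set T := max T₀ (max (16 / η) 1) with hT
  have hT1 : 1 ≤ T := (le_max_right _ _).trans (le_max_right _ _)
  set S := √T with hS
  have hS0 : 0 < S := Real.sqrt_pos.2 (by linarith)
  have hST : S ^ 2 = T := Real.sq_sqrt (by linarith)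
  have hSη : 16 / η ≤ S ^ 2 := by rw [hST]; exact (le_max_left _ _).trans (le_max_right _ _)
  obtain ⟨K₀, C, N, hYC, hYlim⟩ := hY T
  set KY := max K₀ 0 with hKY
  have hKY0 : 0 ≤ KY := le_max_right _ _
  have hint : ∀ (n : ℕ) (τ K : ℝ), Integrable (fun g : Idx n → ℝ =>
      exc K (plJ (b ^ 2 / n) g) (plU τ g)) (gauss (Idx n)) := by
    intro n τ K
    obtain ⟨R, hR⟩ := exists_op_cm2_le n
    refine integrable_gauss_bound ((continuous_exc K).comp (f := fun g : Idx n → ℝ =>
      (plJ (b ^ 2 / n) g, plU τ g)) (((continuous_nullJ _).comp (f := fun g : Idx n → ℝ =>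
        fun e => √(b ^ 2 / n) + g (.inl e)) (by fun_prop)).congr (fun g =>
        (plJ_eq (by positivity) g).symm) |>.prodMk (by unfold plU; fun_prop)))
      (B := R + |K|) fun g => ?_
    rw [abs_of_nonneg (exc_nonneg _ _ _)]
    exact max_le (by linarith [hR (plJ (b ^ 2 / n) g) (plU τ g), neg_abs_le K])
      (by linarith [(op_nonneg _).trans (hR (plJ (b ^ 2 / n) g) (plU τ g)), abs_nonneg K])
  have hC1 : ∀ n : ℕ, ∀ τ : ℝ, N ≤ n → 0 ≤ τ → τ ≤ S ^ 2 → pEv b n n τ (exc KY) ≤ C := by
    intro n τ hn h0 h1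
    refine le_trans ?_ (hYC n τ hn h0 (h1.trans_eq hST))
    refine integral_mono (hint n τ KY) ?_ fun g => exc_le_op hKY0 _ _
    have h := hint n τ 0
    simp only [exc, sub_zero, max_eq_left (op_nonneg _)] at h
    exact h
  have hlim : ∀ τ : ℝ, 0 < τ → τ ≤ S ^ 2 →
      Tendsto (fun n : ℕ => pEv b n n τ (exc KY)) atTop (𝓝 0) := by
    intro τ h0 h1
    refine squeeze_zero (fun n => integral_nonneg fun _ => exc_nonneg _ _ _) (fun n => ?_)
      (hYlim τ h0 (h1.trans_eq hST))
    refine integral_mono (hint n τ KY) (hint n τ K₀) fun g =>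
      max_le_max (sub_le_sub_left (le_max_left _ _) _) le_rfl
  refine ⟨Real.exp (KY * S ^ 2) * Ke, mul_pos (Real.exp_pos _) hKe, fun ε hε => ?_⟩
  set δ := ε / (2 * Real.exp (KY * S ^ 2)) with hδ
  have hδ0 : 0 < δ := by positivity
  set A : ∀ n : ℕ, Set (Mat n) := fun n => {J | δ ≤ excInt KY S J}
  have hA := hC A
    (fun n => measurableSet_le measurable_const (continuous_excInt hKY0 S).measurable)
    (fun n J hJ x => (show δ ≤ excInt KY S (gmat x J) by rw [excInt_gauge]; exact hJ))
    (tendsto_pPr_excInt hKY0 hS0.le hδ0 hC1 hlim)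
  have hB := hend T (le_max_left _ _)
  have hN : ∀ᶠ n : ℕ in atTop, 4 / (9 * (n:ℝ)) ≤ δ := by
    filter_upwards [eventually_ge_atTop (⌈1 / δ⌉₊ + 1)] with n hn
    have h1 : 1 / δ + 1 ≤ n := le_trans (by push_cast; linarith [Nat.le_ceil (1 / δ)])
      (show ((⌈1 / δ⌉₊ + 1 : ℕ) : ℝ) ≤ n by exact_mod_cast hn)
    have h0 : 0 < 1 / δ := by positivity
    rw [div_le_iff₀ (by linarith)]
    have h2 := mul_le_mul_of_nonneg_left h1 hδ0.le
    rw [mul_add, mul_one_div_cancel hδ0.ne'] at h2
    nlinarith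
  refine tendsto_of_tendsto_of_tendsto_of_le_of_le' tendsto_const_nhds
    (by simpa using hA.add hB) (Eventually.of_forall fun n => zero_le) ?_
  filter_upwards [hN, eventually_gt_atTop 0] with n hn hn0
  refine (measure_mono fun g hg => ?_).trans (measure_union_le _ _)
  by_contra hbad
  rw [Set.mem_union, not_or] at hbad
  obtain ⟨f, hf, hlt⟩ := hg
  obtain ⟨h1, h2⟩ := hbad
  simp only [A, Set.mem_ofPred_eq, not_le] at h1
  have hJ : IsCoupling (skJ b g) :=
    ⟨fun i j => Lower.skJ_symm b g i j, fun i => Lower.skJ_diag b g i⟩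
  have h := var_le_of_good hJ hη hKe.le hKY0 hS0 hSη hn0
    (fun u hu f => le_of_not_gt fun hh => h2 ⟨u, by rw [← hST]; exact hu, f, hh⟩) h1 hf
  have h3 : Real.exp (KY * S ^ 2) * (4 / (9 * (n:ℝ)) + δ) ≤ ε := by
    calc Real.exp (KY * S ^ 2) * (4 / (9 * (n:ℝ)) + δ)
        ≤ Real.exp (KY * S ^ 2) * (δ + δ) :=
          mul_le_mul_of_nonneg_left (by linarith) (Real.exp_pos _).le
      _ = ε := by rw [hδ]; field_simp; ring
  rw [var_skJ, dir_skJ] at h
  linarith

end Vale.Agent.P150.Weak.Local
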