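import Vale.Agent.P150.Weak.Local.Nishimori

/-!
Second moments of the partition function of the null disorder for `β < 1`.
-/

open MeasureTheory ProbabilityTheory Finset

namespace Vale.Agent.P150.Weak.Local

open Gap

variable {n : ℕ}

/-- The normalised partition function. -/
noncomputable def zbar (v : ℝ) (g : Edge n → ℝ) : ℝ :=
  (∑ x : Conf n, lik v x g) / Fintype.card (Conf n)

/-- The squared gradient of `log zbar` times `zbar²`. -/
noncomputable def gradW (v : ℝ) (g : Edge n → ℝ) : ℝ :=
  v * ∑ e, ((∑ x : Conf n, pairSpin x e * lik v x g) / Fintype.card (Conf n)) ^ 2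

lemma zbar_pos (v : ℝ) (g : Edge n → ℝ) : 0 < zbar v g :=
  div_pos (sum_pos (fun x _ => Real.exp_pos _) univ_nonempty) (by exact_mod_cast Fintype.card_pos)

lemma integral_zbar (v : ℝ) : ∫ g, zbar (n := n) v g ∂gauss (Edge n) = 1 := by
  simp only [zbar]
  rw [integral_div, integral_finsetSum _ fun x _ => integrable_lik v x]
  have h : ∀ x : Conf n, ∫ g, lik v x g ∂gauss (Edge n) = 1 := fun x => integral_tilt _
  simp [h]

lemma lik_mul (v : ℝ) (hv : 0 ≤ v) (x y : Conf n) (g : Edge n → ℝ) :
    lik v x g * lik v y g = Real.exp (v * ∑ e, pairSpin x e * pairSpin y e) *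
      P146.tilt (fun e => √v * pairSpin x e + √v * pairSpin y e) g := by
  simp only [lik, P146.tilt, ← Real.exp_add, mul_sum, ← sum_sub_distrib, ← sum_add_distrib]
  congr 1
  exact sum_congr rfl fun e _ => by
    linear_combination pairSpin x e * pairSpin y e * Real.mul_self_sqrt hv

lemma integrable_lik_mul (v : ℝ) (hv : 0 ≤ v) (x y : Conf n) :
    Integrable (fun g => lik v x g * lik v y g) (gauss (Edge n)) := by
  simp only [lik_mul v hv]
  exact (integrable_tilt _).const_mul _

lemma integral_lik_mul (v : ℝ) (hv : 0 ≤ v) (x y : Conf n) :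
    ∫ g, lik v x g * lik v y g ∂gauss (Edge n) =
      Real.exp (v * ∑ e, pairSpin x e * pairSpin y e) := by
  simp only [lik_mul v hv]
  rw [integral_const_mul, integral_tilt, mul_one]

lemma sum_pairSpin (x : Conf n) :
    ∑ e, pairSpin x e = ((∑ i, spin x i) ^ 2 - n) / 2 := by
  have h := sum_sym_mul (fun _ => (1:ℝ)) (fun i j => spin x i * spin x j)
  have e1 : ∑ e : Edge n, (1:ℝ) * (spin x e.1.1 * spin x e.1.2 + spin x e.1.2 * spin x e.1.1) =
      2 * ∑ e, pairSpin x e := by
    rw [mul_sum]
    exact sum_congr rfl fun e _ => by rw [pairSpin]; ring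
  have e2 : ∑ i, ∑ j, sym (fun _ : Edge n => (1:ℝ)) i j * (spin x i * spin x j) =
      (∑ i, spin x i) ^ 2 - n := by
    have : ∀ i j : Fin n, sym (fun _ : Edge n => (1:ℝ)) i j * (spin x i * spin x j) =
        spin x i * spin x j - if i = j then 1 else 0 := by
      intro i j
      rcases lt_trichotomy i j with h | rfl | h
      · simp [sym, h, h.ne]
      · simp [sym, Gap.spin_sq]
      · simp [sym, h, h.ne', h.asymm]
    simp [this, sum_sub_distrib, sq, sum_mul_sum]
  linarith

/-- `∫ exp (c t²/2)`. -/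
noncomputable def cBound (c : ℝ) : ℝ := ∫ t, Real.exp (c * t ^ 2 / 2) ∂gaussianReal 0 1

lemma integrable_exp_sq {c : ℝ} (hc : c < 1) :
    Integrable (fun t : ℝ => Real.exp (c * t ^ 2 / 2)) (gaussianReal 0 1) := by
  rw [gaussianReal_of_var_ne_zero 0 one_ne_zero,
    integrable_withDensity_iff_integrable_smul' (measurable_gaussianPDF _ _)
      (ae_of_all _ fun x => ENNReal.ofReal_lt_top)]
  refine ((integrable_exp_neg_mul_sq (show 0 < (1 - c) / 2 by linarith)).const_mul
    (√(2 * Real.pi * 1))⁻¹).congr (ae_of_all _ fun x => ?_)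
  simp only [toReal_gaussianPDF, gaussianPDFReal, NNReal.coe_one, smul_eq_mul, sub_zero, mul_one]
  rw [mul_assoc, ← Real.exp_add]
  ring_nf

lemma cBound_nonneg (c : ℝ) : 0 ≤ cBound c := integral_nonneg fun t => (Real.exp_pos _).le

lemma sum_exp_lin (a : ℝ) :
    ∑ x : Conf n, Real.exp (a * ∑ i, spin x i) ≤
      (Fintype.card (Conf n) : ℝ) * Real.exp (n * a ^ 2 / 2) := by
  have h : ∑ x : Conf n, Real.exp (a * ∑ i, spin x i) = (2 * Real.cosh a) ^ n := by
    simp only [mul_sum, Real.exp_sum, spin]
    rw [← Fintype.prod_sum fun (_ : Fin n) (s : Bool) => Real.exp (a * if s then 1 else -1)]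
    simp only [Fintype.sum_bool, if_true, Bool.false_eq_true, if_false, mul_one, mul_neg,
      prod_const, card_univ, Fintype.card_fin]
    congr 1
    rw [Real.cosh_eq]
    ring
  rw [h, mul_pow]
  refine mul_le_mul (le_of_eq ?_) ?_ (by positivity) (by positivity)
  · simp
  · rw [mul_div_assoc, Real.exp_nat_mul]
    exact pow_le_pow_left₀ (Real.cosh_pos a).le (Real.cosh_le_exp_half_sq a) n

/-- The Rademacher sum has bounded exponential square. -/
lemma sum_exp_sq_le {c : ℝ} (hc0 : 0 ≤ c) (hc : c < 1) (hn : 0 < n) :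
    ∑ x : Conf n, Real.exp (c * (∑ i, spin x i) ^ 2 / (2 * n)) ≤
      (Fintype.card (Conf n) : ℝ) * cBound c := by
  have hn' : (0:ℝ) < n := Nat.cast_pos.2 hn
  set r := √(c / n) with hr
  have hr2 : r ^ 2 = c / n := Real.sq_sqrt (div_nonneg hc0 hn'.le)
  have h1 : ∀ x : Conf n, Real.exp (c * (∑ i, spin x i) ^ 2 / (2 * n)) =
      ∫ t, Real.exp (r * (∑ i, spin x i) * t) ∂gaussianReal 0 1 := by
    intro x
    have h := congrFun (mgf_id_gaussianReal (μ := 0) (v := 1)) (r * ∑ i, spin x i)
    simp only [mgf, id_eq, zero_mul, zero_add, NNReal.coe_one, one_mul] at h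
    rw [h, mul_pow, hr2]
    congr 1
    field_simp
  simp only [h1]
  rw [← integral_finsetSum _ fun x _ => integrable_exp_mul_gaussianReal _, cBound,
    ← integral_const_mul]
  refine integral_mono (integrable_finsetSum _ fun x _ => integrable_exp_mul_gaussianReal _)
    ((integrable_exp_sq hc).const_mul _) fun t => ?_
  calc ∑ x : Conf n, Real.exp (r * (∑ i, spin x i) * t)
      = ∑ x : Conf n, Real.exp (r * t * ∑ i, spin x i) :=
        sum_congr rfl fun x _ => by ring_nf
    _ ≤ (Fintype.card (Conf n) : ℝ) * Real.exp (n * (r * t) ^ 2 / 2) := sum_exp_lin _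
    _ = _ := by
        rw [mul_pow, hr2]
        congr 2
        field_simp

lemma sum_pair_exp_le {b c : ℝ} (hbc : b ^ 2 ≤ c) (hc : c < 1) (hn : 0 < n) (y : Conf n) :
    ∑ x : Conf n, Real.exp (b ^ 2 / n * ∑ e, pairSpin y e * pairSpin x e) ≤
      (Fintype.card (Conf n) : ℝ) * cBound c := by
  refine le_trans ?_ (sum_exp_sq_le ((sq_nonneg b).trans hbc) hc hn)
  rw [← sum_cmul y]
  refine sum_le_sum fun x _ => Real.exp_le_exp.2 ?_
  have hn' : (0:ℝ) < n := Nat.cast_pos.2 hn
  have e : ∀ ed : Edge n, pairSpin y ed * pairSpin (cmul y x) ed = pairSpin x ed := fun ed => by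
    rw [pairSpin_cmul, ← mul_assoc, pairSpin_sq, one_mul]
  simp only [e, sum_pairSpin]
  rw [div_mul_div_comm, mul_comm (n:ℝ) 2]
  refine div_le_div_of_nonneg_right ?_ (by positivity)
  nlinarith [sq_nonneg (∑ i, spin x i), mul_nonneg (sub_nonneg.2 hbc) (sq_nonneg (∑ i, spin x i)),
    mul_nonneg (sq_nonneg b) hn'.le]

lemma integral_zbar_sq_le {b c : ℝ} (hbc : b ^ 2 ≤ c) (hc : c < 1) (hn : 0 < n) :
    Integrable (fun g => zbar (n := n) (b ^ 2 / n) g ^ 2) (gauss (Edge n)) ∧
      ∫ g, zbar (n := n) (b ^ 2 / n) g ^ 2 ∂gauss (Edge n) ≤ cBound c := by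
  set v := b ^ 2 / (n:ℝ) with hvd
  have hv : 0 ≤ v := by positivity
  set N : ℝ := (Fintype.card (Conf n) : ℝ) with hN
  have hN0 : 0 < N := by rw [hN]; exact_mod_cast Fintype.card_pos
  have e : (fun g => zbar (n := n) v g ^ 2) =
      fun g => (∑ x : Conf n, ∑ y : Conf n, lik v x g * lik v y g) / N ^ 2 :=
    funext fun g => by rw [zbar, div_pow, sq (∑ x : Conf n, lik v x g), sum_mul_sum]
  have hi : ∀ x : Conf n, Integrable (fun g => ∑ y : Conf n, lik v x g * lik v y g)
      (gauss (Edge n)) := fun x => integrable_finsetSum _ fun y _ => integrable_lik_mul v hv x y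
  rw [e]
  refine ⟨(integrable_finsetSum _ fun x _ => hi x).div_const _, ?_⟩
  rw [integral_div, integral_finsetSum _ fun x _ => hi x, div_le_iff₀ (by positivity)]
  calc ∑ x : Conf n, ∫ g, ∑ y : Conf n, lik v x g * lik v y g ∂gauss (Edge n)
      ≤ ∑ _x : Conf n, N * cBound c := sum_le_sum fun x _ => by
        rw [integral_finsetSum _ fun y _ => integrable_lik_mul v hv x y]
        simp only [integral_lik_mul v hv]
        exact sum_pair_exp_le hbc hc hn x
    _ = cBound c * N ^ 2 := by
        rw [sum_const, card_univ, nsmul_eq_mul]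
        ring

lemma integral_gradW_le {b c : ℝ} (hbc : b ^ 2 < c) (hc : c < 1) (hn : 0 < n) :
    Integrable (fun g => gradW (n := n) (b ^ 2 / n) g) (gauss (Edge n)) ∧
      ∫ g, gradW (n := n) (b ^ 2 / n) g ∂gauss (Edge n) ≤ cBound c / (c - b ^ 2) := by
  set v := b ^ 2 / (n:ℝ) with hvd
  have hv : 0 ≤ v := by positivity
  set N : ℝ := (Fintype.card (Conf n) : ℝ) with hN
  have hN0 : 0 < N := by rw [hN]; exact_mod_cast Fintype.card_pos
  have hn' : (0:ℝ) < n := Nat.cast_pos.2 hn
  set P : Conf n → Conf n → ℝ := fun x y => ∑ e, pairSpin x e * pairSpin y e with hP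
  have e : (fun g => gradW (n := n) v g) =
      fun g => (∑ x : Conf n, ∑ y : Conf n, v * P x y * (lik v x g * lik v y g)) / N ^ 2 := by
    funext g
    rw [gradW]
    simp only [div_pow, ← sum_div, ← hN]
    rw [← mul_div_assoc, mul_sum]
    congr 1
    simp only [hP, mul_sum, sum_mul, sq]
    rw [sum_comm]
    refine sum_congr rfl fun x _ => ?_
    rw [sum_comm]
    exact sum_congr rfl fun y _ => sum_congr rfl fun e _ => by ring
  have hi : ∀ x : Conf n, Integrable (fun g => ∑ y : Conf n, v * P x y * (lik v x g * lik v y g))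
      (gauss (Edge n)) :=
    fun x => integrable_finsetSum _ fun y _ => (integrable_lik_mul v hv x y).const_mul _
  rw [e]
  refine ⟨(integrable_finsetSum _ fun x _ => hi x).div_const _, ?_⟩
  rw [integral_div, integral_finsetSum _ fun x _ => hi x, div_le_iff₀ (by positivity)]
  have hk : 0 < c - b ^ 2 := by linarith
  calc ∑ x : Conf n, ∫ g, ∑ y : Conf n, v * P x y * (lik v x g * lik v y g) ∂gauss (Edge n)
      ≤ ∑ _x : Conf n, N * cBound c / (c - b ^ 2) := sum_le_sum fun x _ => by
        rw [integral_finsetSum _ fun y _ => (integrable_lik_mul v hv x y).const_mul _]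
        simp only [integral_const_mul, integral_lik_mul v hv, hP]
        rw [le_div_iff₀ hk]
        refine le_trans ?_ (sum_exp_sq_le ((sq_nonneg b).trans hbc.le) hc hn)
        rw [sum_mul, ← sum_cmul x]
        refine sum_le_sum fun y _ => ?_
        have h : ∀ ed : Edge n, pairSpin x ed * pairSpin (cmul x y) ed = pairSpin y ed :=
          fun ed => by rw [pairSpin_cmul, ← mul_assoc, pairSpin_sq, one_mul]
        simp only [h, sum_pairSpin]
        set S := ∑ i, spin y i
        set a := v * ((S ^ 2 - n) / 2) with ha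
        set q := S ^ 2 / (2 * n) with hq
        have hq0 : 0 ≤ q := by positivity
        have hab : a ≤ b ^ 2 * q := by
          have : a = b ^ 2 * q - b ^ 2 / 2 := by
            simp only [ha, hq, hvd]
            field_simp
          linarith [sq_nonneg b]
        rw [show c * S ^ 2 / (2 * n) = c * q by rw [hq]; ring]
        rcases le_or_gt a 0 with h0 | h0
        · exact (mul_nonpos_of_nonpos_of_nonneg
            (mul_nonpos_of_nonpos_of_nonneg h0 (Real.exp_pos _).le) hk.le).trans (Real.exp_pos _).le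
        · have h2 : a * (c - b ^ 2) ≤ Real.exp ((c - b ^ 2) * q) := by
            have hq1 : a * (c - b ^ 2) ≤ (c - b ^ 2) * q := by
              rw [mul_comm]
              refine mul_le_mul_of_nonneg_left (hab.trans ?_) hk.le
              exact mul_le_of_le_one_left hq0 (by linarith)
            linarith [Real.add_one_le_exp ((c - b ^ 2) * q)]
          calc a * Real.exp a * (c - b ^ 2) = a * (c - b ^ 2) * Real.exp a := by ring
            _ ≤ Real.exp ((c - b ^ 2) * q) * Real.exp (b ^ 2 * q) :=
              mul_le_mul h2 (Real.exp_le_exp.2 hab) (Real.exp_pos _).le (Real.exp_pos _).le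
            _ = Real.exp (c * q) := by rw [← Real.exp_add]; ring_nf
    _ = cBound c / (c - b ^ 2) * N ^ 2 := by
        rw [sum_const, card_univ, nsmul_eq_mul]
        ring

end Vale.Agent.P150.Weak.Local
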