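import Vale.Agent.P150.Weak.Local.Ising
import Vale.Agent.P150.Weak.GaussShift
import Vale.Agent.P150.Gap.Mixing

/-!
The planted and the null disorder: gauge invariance, Bayes formula, Nishimori identity.
-/

open MeasureTheory ProbabilityTheory Finset

namespace Vale.Agent.P150.Weak.Local

open Gap

variable {n : ℕ}

/-- Centred couplings of variance `v`. -/
noncomputable def nullJ (v : ℝ) (g : Edge n → ℝ) : Mat n := fun i j => √v * sym g i j

/-- Gauge transformation of the disorder. -/
def gsig (x : Conf n) (g : Edge n → ℝ) : Edge n → ℝ := fun e => pairSpin x e * g e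

/-- The likelihood ratio for a planted configuration `x`. -/
noncomputable def lik (v : ℝ) (x : Conf n) (g : Edge n → ℝ) : ℝ :=
  P146.tilt (fun e => √v * pairSpin x e) g

lemma pairSpin_sq (x : Conf n) (e : Edge n) : pairSpin x e * pairSpin x e = 1 := by
  rw [pairSpin]
  linear_combination (spin x e.1.2 * spin x e.1.2) * Gap.spin_sq x e.1.1 + Gap.spin_sq x e.1.2

lemma pairSpin_ones (e : Edge n) : pairSpin (fun _ => true) e = 1 := by simp [pairSpin, spin]

lemma pairSpin_cmul (x y : Conf n) (e : Edge n) :
    pairSpin (cmul x y) e = pairSpin x e * pairSpin y e := by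
  simp only [pairSpin, spin_cmul]
  ring

lemma expo_nullJ (v : ℝ) (g : Edge n → ℝ) (x : Conf n) :
    expo (nullJ v g) 0 x = √v * ∑ e, g e * pairSpin x e := by
  have h : ∑ i, ∑ j, nullJ v g i j * spin x i * spin x j =
      √v * ∑ i, ∑ j, sym g i j * (spin x i * spin x j) := by
    simp only [mul_sum]
    exact sum_congr rfl fun i _ => sum_congr rfl fun j _ => by simp only [nullJ]; ring
  rw [expo, h, sum_sym_mul]
  simp only [Pi.zero_apply, zero_mul, sum_const_zero, add_zero, pairSpin, mul_sum, sum_div]
  exact sum_congr rfl fun e _ => by ring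

lemma lik_eq (v : ℝ) (x : Conf n) (g : Edge n → ℝ) :
    lik v x g = Real.exp (-(∑ _e : Edge n, √v ^ 2 / 2)) * wt (nullJ v g) 0 x := by
  rw [lik, P146.tilt, wt, expo_nullJ, ← Real.exp_add]
  congr 1
  have h1 : ∑ e, (√v * pairSpin x e) ^ 2 / 2 = ∑ _e : Edge n, √v ^ 2 / 2 :=
    sum_congr rfl fun e _ => by rw [mul_pow, sq (pairSpin x e), pairSpin_sq, mul_one]
  have h2 : ∑ e, √v * pairSpin x e * g e = √v * ∑ e, g e * pairSpin x e := by
    rw [mul_sum]
    exact sum_congr rfl fun e _ => by ring
  rw [h1, h2]
  ring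

lemma lik_nonneg (v : ℝ) (x : Conf n) (g : Edge n → ℝ) : 0 ≤ lik v x g := (Real.exp_pos _).le

lemma sym_gsig (x : Conf n) (g : Edge n → ℝ) (i j : Fin n) :
    sym (gsig x g) i j = spin x i * spin x j * sym g i j := by
  unfold sym gsig pairSpin
  split_ifs <;> ring

lemma gmat_nullJ (x : Conf n) (v : ℝ) (g : Edge n → ℝ) :
    gmat x (nullJ v g) = nullJ v (gsig x g) := by
  funext i j
  simp only [gmat, nullJ, sym_gsig]
  ring

lemma gsig_gsig (x : Conf n) (g : Edge n → ℝ) : gsig x (gsig x g) = g := by
  funext e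
  simp only [gsig, ← mul_assoc, pairSpin_sq, one_mul]

lemma lik_gsig (v : ℝ) (x y : Conf n) (g : Edge n → ℝ) :
    lik v x (gsig y g) = lik v (cmul x y) g := by
  simp only [lik, P146.tilt, gsig, pairSpin_cmul]
  congr 2
  · exact sum_congr rfl fun e _ => by ring
  · exact sum_congr rfl fun e _ => by
      linear_combination (-(√v ^ 2) * pairSpin x e ^ 2 / 2) * pairSpin_sq y e

lemma gauss_gsig (x : Conf n) :
    MeasurePreserving (gsig x) (gauss (Edge n)) (gauss (Edge n)) := by
  refine measurePreserving_pi _ _ fun e => ⟨measurable_const_mul _, ?_⟩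
  rw [gaussianReal_map_const_mul, mul_zero]
  congr 1
  ext
  simp [sq, pairSpin_sq]

lemma continuous_nullJ (v : ℝ) : Continuous (nullJ (n := n) v) := by
  refine continuous_pi fun i => continuous_pi fun j => continuous_const.mul ?_
  unfold sym
  split_ifs <;> fun_prop

lemma continuous_lik (v : ℝ) (x : Conf n) : Continuous (lik v x) := by
  unfold lik P146.tilt
  fun_prop

lemma integrable_lik (v : ℝ) (x : Conf n) : Integrable (lik v x) (gauss (Edge n)) :=
  integrable_tilt _

/-- Planted couplings are shifted null couplings. -/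
lemma plJ_eq {v : ℝ} (hv : 0 ≤ v) (g : Idx n → ℝ) :
    plJ v g = nullJ v (fun e => √v + g (.inl e)) := by
  funext i j
  simp only [plJ, nullJ, sym]
  rcases lt_trichotomy i j with h | rfl | h
  · rw [if_neg h.ne, dif_pos h, dif_pos h, mul_add, Real.mul_self_sqrt hv]
  · simp
  · rw [if_neg h.ne', dif_neg h.asymm, dif_pos h, dif_neg h.asymm, dif_pos h, mul_add,
      Real.mul_self_sqrt hv]

/-- Change of law, for measurable bounded functions. -/
lemma integral_shift' {ι : Type*} [Fintype ι] (θ : ι → ℝ) {φ : (ι → ℝ) → ℝ} (hm : Measurable φ) :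
    ∫ g, φ (fun i => θ i + g i) ∂gauss ι = ∫ g, P146.tilt θ g * φ g ∂gauss ι := by
  have hs : Measurable fun g : ι → ℝ => fun i => θ i + g i := by fun_prop
  rw [← integral_map hs.aemeasurable hm.aestronglyMeasurable, P146.gauss_shift_eq,
    integral_withDensity_eq_integral_toReal_smul (by unfold P146.tilt; fun_prop)
      (ae_of_all _ fun g => ENNReal.ofReal_lt_top)]
  refine integral_congr_ae (ae_of_all _ fun g => ?_)
  simp only [smul_eq_mul,
    ENNReal.toReal_ofReal (show 0 ≤ P146.tilt θ g from (Real.exp_pos _).le)]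

/-- Planted expectations as null expectations. -/
lemma integral_planted (v : ℝ) {φ : Mat n → ℝ} (hm : Measurable φ) :
    ∫ g : Edge n → ℝ, φ (nullJ v fun e => √v + g e) ∂gauss (Edge n) =
      ∫ g, lik v (fun _ => true) g * φ (nullJ v g) ∂gauss (Edge n) := by
  rw [integral_shift' (fun _ => √v) (φ := fun g => φ (nullJ v g))
    (hm.comp (continuous_nullJ v).measurable)]
  simp [lik, pairSpin_ones]

/-- **Nishimori identity**: under the planted law a Gibbs sample may be gauged to the planted
configuration. -/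
theorem nishimori (v : ℝ) {Φ : Mat n → ℝ} (hc : Continuous Φ) {B : ℝ} (hB : ∀ J, |Φ J| ≤ B) :
    ∫ g : Edge n → ℝ, (fun J => ∑ y, mu J 0 y * Φ (gmat y J)) (nullJ v fun e => √v + g e)
        ∂gauss (Edge n) =
      ∫ g : Edge n → ℝ, Φ (nullJ v fun e => √v + g e) ∂gauss (Edge n) := by
  set one : Conf n := fun _ => true with hone
  have hgm : ∀ y : Conf n, Continuous fun J : Mat n => Φ (gmat y J) := fun y => hc.comp <|
    continuous_pi fun i => continuous_pi fun j => by unfold gmat; fun_prop
  have hF : Continuous fun J : Mat n => ∑ y, mu J 0 y * Φ (gmat y J) := by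
    simp only [mu, wt, expo]
    exact continuous_finsetSum _ fun y _ => (Continuous.div₀ (by fun_prop) (by fun_prop) fun J =>
      (sum_pos (fun z _ => Real.exp_pos _) univ_nonempty).ne').mul (hgm y)
  rw [integral_planted v hF.measurable, integral_planted v hc.measurable]
  have hmu1 : ∀ (y : Conf n) (h : Edge n → ℝ),
      mu (nullJ v (gsig y h)) 0 y = mu (nullJ v h) 0 one := by
    intro y h
    rw [← gmat_nullJ, ← gvec_zero y, mu_gauge, gvec_zero, cmul_self]
  have hmc : ∀ y, Continuous fun g : Edge n → ℝ => mu (nullJ v g) 0 y := fun y => by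
    simp only [mu, wt, expo_nullJ]
    exact Continuous.div₀ (by fun_prop) (by fun_prop) fun g =>
      (sum_pos (fun z _ => Real.exp_pos _) univ_nonempty).ne'
  have hterm : ∀ y, Continuous fun g : Edge n → ℝ =>
      lik v one g * (mu (nullJ v g) 0 y * Φ (gmat y (nullJ v g))) := fun y =>
    (continuous_lik v one).mul ((hmc y).mul ((hgm y).comp (continuous_nullJ v)))
  have hint : ∀ y, Integrable (fun g : Edge n → ℝ =>
      lik v one g * (mu (nullJ v g) 0 y * Φ (gmat y (nullJ v g)))) (gauss (Edge n)) := fun y =>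
    (integrable_lik v one).mul_bdd (c := B)
      ((hmc y).mul ((hgm y).comp (continuous_nullJ v))).aestronglyMeasurable
      (ae_of_all _ fun g => by
        have h1 : mu (nullJ v g) 0 y ≤ 1 :=
          (single_le_sum (fun z _ => (mu_pos _ _ z).le) (mem_univ y)).trans_eq (sum_mu _ _)
        rw [Real.norm_eq_abs, abs_mul, abs_of_pos (mu_pos _ _ y)]
        exact (mul_le_of_le_one_left (abs_nonneg _) h1).trans (hB _))
  have hint' : ∀ y, Integrable (fun h : Edge n → ℝ =>
      lik v y h * (mu (nullJ v h) 0 one * Φ (nullJ v h))) (gauss (Edge n)) := fun y => by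
    have := (gauss_gsig y).integrable_comp_of_integrable (hint y)
    simp only [Function.comp_def, lik_gsig, hmu1, gmat_nullJ, gsig_gsig] at this
    rwa [cmul_comm, show cmul y one = y from funext fun i => by simp [cmul, hone]] at this
  calc ∫ g, lik v one g * ∑ y, mu (nullJ v g) 0 y * Φ (gmat y (nullJ v g)) ∂gauss (Edge n)
      = ∑ y, ∫ g, lik v one g * (mu (nullJ v g) 0 y * Φ (gmat y (nullJ v g))) ∂gauss (Edge n) := by
        simp only [mul_sum]
        exact integral_finsetSum _ fun y _ => hint y
    _ = ∑ y, ∫ h, lik v y h * (mu (nullJ v h) 0 one * Φ (nullJ v h)) ∂gauss (Edge n) := by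
        refine sum_congr rfl fun y _ => ?_
        rw [← integral_comp_mp (gauss_gsig y) (hterm y).aestronglyMeasurable]
        simp only [lik_gsig, hmu1, gmat_nullJ, gsig_gsig]
        rw [cmul_comm, show cmul y one = y from funext fun i => by simp [cmul, hone]]
    _ = ∫ h, lik v one h * Φ (nullJ v h) ∂gauss (Edge n) := by
        rw [← integral_finsetSum _ fun y _ => hint' y]
        refine integral_congr_ae (ae_of_all _ fun h => ?_)
        simp only [lik_eq, mul_assoc, ← mul_sum, ← sum_mul, mu]
        congr 1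
        have := (sum_pos (fun z _ => wt_pos (nullJ v h) 0 z) univ_nonempty).ne'
        field_simp

end Vale.Agent.P150.Weak.Local
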